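import Mathlib

/-!
The generalized amplitude-damping channel, its tensor powers and the Holevo quantity.
-/

noncomputable section

open Matrix
open scoped ComplexOrder

namespace Vale.Agent.P358

/-- The channel on one qubit, written as in the problem and extended linearly. -/
def gad (γ ν : ℝ) (ρ : Matrix (Fin 2) (Fin 2) ℂ) : Matrix (Fin 2) (Fin 2) ℂ :=
  !![ρ 0 0 + ρ 1 1 - ((1 - γ : ℝ) * ρ 1 1 + (γ * ν : ℝ) * (ρ 0 0 + ρ 1 1)),
      (Real.sqrt (1 - γ) : ℝ) * ρ 0 1;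
    (Real.sqrt (1 - γ) : ℝ) * ρ 1 0,
      (1 - γ : ℝ) * ρ 1 1 + (γ * ν : ℝ) * (ρ 0 0 + ρ 1 1)]

/-- Four Kraus operators of `gad`. -/
def gadKraus (γ ν : ℝ) : Fin 4 → Matrix (Fin 2) (Fin 2) ℂ :=
  ![Real.sqrt (1 - ν) • !![1, 0; 0, (Real.sqrt (1 - γ) : ℂ)],
    Real.sqrt (1 - ν) • !![0, (Real.sqrt γ : ℂ); 0, 0],
    Real.sqrt ν • !![(Real.sqrt (1 - γ) : ℂ), 0; 0, 1],
    Real.sqrt ν • !![0, 0; (Real.sqrt γ : ℂ), 0]]

/-- Entrywise tensor product of the one-qubit matrices `A i`. -/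
def tensor {n : ℕ} (A : Fin n → Matrix (Fin 2) (Fin 2) ℂ) :
    Matrix (Fin n → Fin 2) (Fin n → Fin 2) ℂ :=
  Matrix.of fun x y => ∏ i, A i (x i) (y i)

/-- The `n`-fold tensor power of the channel. -/
def gadPow (γ ν : ℝ) (n : ℕ) (ρ : Matrix (Fin n → Fin 2) (Fin n → Fin 2) ℂ) :
    Matrix (Fin n → Fin 2) (Fin n → Fin 2) ℂ :=
  ∑ w : Fin n → Fin 4,
    tensor (fun i => gadKraus γ ν (w i)) * ρ * (tensor fun i => gadKraus γ ν (w i))ᴴ

/-- Von Neumann entropy in bits, over the eigenvalues counted with multiplicity. -/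
def entropy {ι : Type*} [Fintype ι] [DecidableEq ι] (M : Matrix ι ι ℂ) : ℝ :=
  (M.charpoly.roots.map fun z : ℂ => -(z.re * Real.logb 2 z.re)).sum

/-- A density matrix. -/
def IsState {ι : Type*} [Fintype ι] (ρ : Matrix ι ι ℂ) : Prop :=
  ρ.PosSemidef ∧ ρ.trace = 1

/-- The values of all finite ensembles of states. -/
def holevoValues {ι κ : Type*} [Fintype ι] [Fintype κ] [DecidableEq κ]
    (Φ : Matrix ι ι ℂ → Matrix κ κ ℂ) : Set ℝ :=
  {r | ∃ (m : ℕ) (q : Fin m → ℝ) (ρ : Fin m → Matrix ι ι ℂ),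
    (∀ a, 0 ≤ q a) ∧ ∑ a, q a = 1 ∧ (∀ a, IsState (ρ a)) ∧
    r = entropy (∑ a, q a • Φ (ρ a)) - ∑ a, q a * entropy (Φ (ρ a))}

/-- The Holevo capacity. -/
def chi {ι κ : Type*} [Fintype ι] [Fintype κ] [DecidableEq κ]
    (Φ : Matrix ι ι ℂ → Matrix κ κ ℂ) : ℝ :=
  sSup (holevoValues Φ)

/-- The classical capacity: the regularized Holevo capacity. -/
def capacity (γ ν : ℝ) : ℝ :=
  ⨆ n : ℕ, chi (gadPow γ ν (n + 1)) / (n + 1)

end Vale.Agent.P358
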