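import Mathlib

/-!
Elementary facts about the entropy `- ∑ λ log λ` of a finite complex matrix.
-/

noncomputable section

open Matrix Finset Filter Topology
open scoped ComplexOrder

namespace Vale.Agent.P358

variable {n m : Type*} [Fintype n] [DecidableEq n] [Fintype m] [DecidableEq m]

/-- Entropy in nats: the sum of `-λ log λ` over the roots of the characteristic polynomial. -/
def ent (M : Matrix n n ℂ) : ℝ :=
  (M.charpoly.roots.map fun z : ℂ => Real.negMulLog z.re).sum

/-- `U` and `d` diagonalise `M`. -/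
structure Diag (M U : Matrix n n ℂ) (d : n → ℝ) : Prop where
  left : Uᴴ * U = 1
  right : U * Uᴴ = 1
  eq : M = U * diagonal (fun i => (d i : ℂ)) * Uᴴ

/-- The pairing of `N` with the logarithm of the matrix diagonalised by `U` and `d`. -/
def trLog (N U : Matrix n n ℂ) (d : n → ℝ) : ℝ :=
  ∑ k, ((Uᴴ * N * U) k k).re * Real.log (d k)

theorem exists_diag {M : Matrix n n ℂ} (h : M.IsHermitian) :
    Diag M h.eigenvectorUnitary h.eigenvalues := by
  refine ⟨?_, ?_, ?_⟩
  · exact Unitary.coe_star_mul_self _
  · exact Unitary.coe_mul_star_self _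
  · have := h.spectral_theorem
    rw [Unitary.conjStarAlgAut_apply] at this
    simpa [Function.comp_def, star_eq_conjTranspose] using this

theorem ent_diagonal (d : n → ℝ) :
    ent (diagonal fun i => (d i : ℂ)) = ∑ i, Real.negMulLog (d i) := by
  unfold ent
  rw [charpoly_diagonal, Polynomial.roots_prod _ _ (by
    simp [Finset.prod_ne_zero_iff, Polynomial.X_sub_C_ne_zero])]
  simp [Multiset.map_map, Finset.sum_map_val]

theorem ent_conj {U : Matrix n n ℂ} (hU : Uᴴ * U = 1) (M : Matrix n n ℂ) :
    ent (U * M * Uᴴ) = ent M := by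
  unfold ent
  rw [charpoly_mul_comm, ← Matrix.mul_assoc, hU, Matrix.one_mul]

theorem ent_submatrix (e : m ≃ n) (M : Matrix n n ℂ) : ent (M.submatrix e e) = ent M := by
  unfold ent
  rw [← charpoly_reindex e.symm M]
  rfl

theorem ent_fromBlocks (A : Matrix n n ℂ) (D : Matrix m m ℂ) :
    ent (fromBlocks A 0 0 D) = ent A + ent D := by
  unfold ent
  rw [charpoly_fromBlocks_zero₂₁, Polynomial.roots_mul
    (mul_ne_zero (charpoly_monic A).ne_zero (charpoly_monic D).ne_zero), Multiset.map_add,
    Multiset.sum_add]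

namespace Diag

variable {M U : Matrix n n ℂ} {d : n → ℝ}

theorem ent_eq (h : Diag M U d) : ent M = ∑ i, Real.negMulLog (d i) := by
  rw [h.eq, ent_conj h.left, ent_diagonal]

theorem conj_eq (h : Diag M U d) : Uᴴ * M * U = diagonal (fun i => (d i : ℂ)) := by
  rw [h.eq]
  simp only [Matrix.mul_assoc, h.left, Matrix.mul_one]
  rw [← Matrix.mul_assoc, h.left, Matrix.one_mul]

theorem trace_eq (h : Diag M U d) : M.trace.re = ∑ i, d i := by
  rw [h.eq, Matrix.trace_mul_comm, ← Matrix.mul_assoc, h.left, Matrix.one_mul]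
  simp

theorem trLog_self (h : Diag M U d) : trLog M U d = -ent M := by
  rw [h.ent_eq, ← Finset.sum_neg_distrib, trLog, h.conj_eq]
  refine Finset.sum_congr rfl fun i _ => ?_
  simp [Real.negMulLog]

theorem smul (h : Diag M U d) (c : ℝ) : Diag (c • M) U (fun i => c * d i) := by
  refine ⟨h.left, h.right, ?_⟩
  conv_lhs => rw [h.eq]
  rw [← Matrix.smul_mul, ← Matrix.mul_smul]
  congr 2
  ext i j
  by_cases hij : i = j <;> simp [hij]

theorem shift (h : Diag M U d) (c : ℝ) : Diag (M + c • 1) U (fun i => d i + c) := by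
  refine ⟨h.left, h.right, ?_⟩
  have e : (diagonal fun i => ((d i + c : ℝ) : ℂ)) =
      diagonal (fun i => (d i : ℂ)) + c • (1 : Matrix n n ℂ) := by
    ext i j
    by_cases hij : i = j <;> simp [hij]
  rw [e, Matrix.mul_add, Matrix.add_mul, ← h.eq, Matrix.mul_smul, Matrix.smul_mul, Matrix.mul_one,
    h.right]

end Diag

theorem trLog_add (N N' U : Matrix n n ℂ) (d : n → ℝ) :
    trLog (N + N') U d = trLog N U d + trLog N' U d := by
  simp [trLog, Matrix.mul_add, Finset.sum_add_distrib, add_mul]

theorem trLog_smul (c : ℝ) (N U : Matrix n n ℂ) (d : n → ℝ) :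
    trLog (c • N) U d = c * trLog N U d := by
  simp [trLog, Finset.mul_sum, mul_assoc]

omit [DecidableEq n] in
theorem conj_diag_nonneg {X : Matrix n n ℂ} (hX : X.PosSemidef) (U : Matrix n n ℂ) (k : n) :
    0 ≤ ((Uᴴ * X * U) k k).re :=
  (Complex.le_def.1 (hX.conjTranspose_mul_mul_same U).diag_nonneg).1

theorem trace_conj {U : Matrix n n ℂ} (hU : U * Uᴴ = 1) (X : Matrix n n ℂ) :
    (Uᴴ * X * U).trace = X.trace := by
  rw [Matrix.trace_mul_comm, ← Matrix.mul_assoc, hU, Matrix.one_mul]

theorem sum_conj_diag {U : Matrix n n ℂ} (hU : U * Uᴴ = 1) (X : Matrix n n ℂ) :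
    ∑ k, ((Uᴴ * X * U) k k).re = X.trace.re := by
  rw [← trace_conj hU X]
  simp [Matrix.trace]

/-- Klein's inequality. -/
theorem klein {X U : Matrix n n ℂ} (hX : X.PosSemidef) (hU : Uᴴ * U = 1) (hU' : U * Uᴴ = 1)
    {d : n → ℝ} (hd : ∀ k, 0 ≤ d k) (hs : ∀ k, d k = 0 → ((Uᴴ * X * U) k k).re = 0) :
    ent X ≤ -trLog X U d + ∑ k, d k - X.trace.re := by
  have hV := exists_diag hX.1
  have hx := hX.eigenvalues_nonneg
  set V : Matrix n n ℂ := (hX.1.eigenvectorUnitary : Matrix n n ℂ) with hVdef
  set x := hX.1.eigenvalues with hxdef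
  clear_value V x
  set O := Uᴴ * V with hO
  have h1 : O * Oᴴ = 1 := by
    rw [hO, conjTranspose_mul, conjTranspose_conjTranspose, Matrix.mul_assoc Uᴴ V,
      ← Matrix.mul_assoc V, hV.right, Matrix.one_mul, hU]
  have h2 : Oᴴ * O = 1 := by
    rw [hO, conjTranspose_mul, conjTranspose_conjTranspose, Matrix.mul_assoc Vᴴ U,
      ← Matrix.mul_assoc U, hU', Matrix.one_mul, hV.left]
  set w : n → n → ℝ := fun k l => Complex.normSq (O k l)
  have hw : ∀ k l, 0 ≤ w k l := fun k l => Complex.normSq_nonneg _
  have hr : ∀ k, ∑ l, w k l = 1 := fun k => by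
    have := congrArg Complex.re (congrFun (congrFun h1 k) k)
    simpa [Matrix.mul_apply, w, Complex.normSq_apply] using this
  have hc : ∀ l, ∑ k, w k l = 1 := fun l => by
    have := congrArg Complex.re (congrFun (congrFun h2 l) l)
    simpa [Matrix.mul_apply, w, Complex.normSq_apply] using this
  have hk : ∀ k, ((Uᴴ * X * U) k k).re = ∑ l, w k l * x l := fun k => by
    have : Uᴴ * X * U = O * diagonal (fun i => (x i : ℂ)) * Oᴴ := by
      rw [hV.eq, hO, conjTranspose_mul, conjTranspose_conjTranspose]
      simp only [Matrix.mul_assoc]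
    rw [this]
    simp [Matrix.mul_apply, w, Matrix.diagonal_apply, Complex.normSq_apply]
    exact Finset.sum_congr rfl fun l _ => by ring
  have key : ∀ k l, w k l * (Real.negMulLog (x l) + x l * Real.log (d k) - d k + x l) ≤ 0 := by
    intro k l
    rcases eq_or_lt_of_le (hx l) with h | h
    · simp only [← h, Real.negMulLog_zero, zero_mul, add_zero, zero_sub, mul_neg, neg_nonpos]
      exact mul_nonneg (hw k l) (hd k)
    rcases eq_or_lt_of_le (hd k) with h' | h'
    · have h0 := hs k h'.symm
      rw [hk, Finset.sum_eq_zero_iff_of_nonneg fun j _ => mul_nonneg (hw k j) (hx j)] at h0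
      have := (mul_eq_zero.1 (h0 l (Finset.mem_univ l))).resolve_right h.ne'
      simp [this]
    refine mul_nonpos_of_nonneg_of_nonpos (hw k l) ?_
    have hl := mul_le_mul_of_nonneg_left (Real.log_le_sub_one_of_pos (div_pos h' h)) h.le
    rw [Real.log_div h'.ne' h.ne', mul_sub, mul_sub, mul_div_cancel₀ _ h.ne', mul_one] at hl
    rw [Real.negMulLog]
    linarith
  have tot : ∑ k, ∑ l, w k l * (Real.negMulLog (x l) + x l * Real.log (d k) - d k + x l) ≤ 0 :=
    Finset.sum_nonpos fun k _ => Finset.sum_nonpos fun l _ => key k l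
  have e1 : ∑ k, ∑ l, w k l * Real.negMulLog (x l) = ent X := by
    rw [Finset.sum_comm, hV.ent_eq]
    simp [← Finset.sum_mul, hc]
  have e2 : ∑ k, ∑ l, w k l * (x l * Real.log (d k)) = trLog X U d := by
    refine Finset.sum_congr rfl fun k _ => ?_
    rw [hk, Finset.sum_mul]
    exact Finset.sum_congr rfl fun l _ => (mul_assoc _ _ _).symm
  have e3 : ∑ k, ∑ l, w k l * d k = ∑ k, d k := by simp [← Finset.sum_mul, hr]
  have e4 : ∑ k, ∑ l, w k l * x l = X.trace.re := by
    rw [← sum_conj_diag hU' X]
    simp [hk]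
  simp only [mul_add, mul_sub, Finset.sum_add_distrib, Finset.sum_sub_distrib, e1, e2, e3, e4] at tot
  linarith

theorem Diag.nonneg {M U : Matrix n n ℂ} {d : n → ℝ} (h : Diag M U d) (hM : M.PosSemidef) (k : n) :
    0 ≤ d k := by
  simpa [h.conj_eq] using conj_diag_nonneg hM U k

theorem Diag.pos {M U : Matrix n n ℂ} {d : n → ℝ} (h : Diag M U d) (hM : M.PosDef) (k : n) :
    0 < d k := by
  have hinj : Function.Injective U.mulVec := by
    intro a b hab
    simpa [h.left] using congrArg (fun v => Uᴴ *ᵥ v) hab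
  have := (hM.conjTranspose_mul_mul_same hinj).diag_pos (i := k)
  simpa [h.conj_eq] using (Complex.lt_def.1 this).1

theorem ent_smul {M : Matrix n n ℂ} (hM : M.IsHermitian) (c : ℝ) :
    ent (c • M) = c * ent M + M.trace.re * Real.negMulLog c := by
  have h := exists_diag hM
  rw [(h.smul c).ent_eq, h.ent_eq, h.trace_eq, Finset.sum_mul, Finset.mul_sum,
    ← Finset.sum_add_distrib]
  exact Finset.sum_congr rfl fun i _ => by rw [Real.negMulLog_mul]; ring

theorem ent_zero : ent (0 : Matrix n n ℂ) = 0 := by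
  simpa using ent_diagonal (n := n) (fun _ => 0)

theorem ent_nonneg {M : Matrix n n ℂ} (hM : M.PosSemidef) (h : M.trace.re ≤ 1) : 0 ≤ ent M := by
  have hd := exists_diag hM.1
  rw [hd.ent_eq]
  refine Finset.sum_nonneg fun i _ => Real.negMulLog_nonneg (hM.eigenvalues_nonneg i) ?_
  refine le_trans ?_ (hd.trace_eq ▸ h)
  exact Finset.single_le_sum (fun j _ => hM.eigenvalues_nonneg j) (Finset.mem_univ i)

/-- Concavity, for two states. -/
theorem ent_mix {A B : Matrix n n ℂ} (hA : A.PosSemidef) (hB : B.PosSemidef)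
    (tA : A.trace.re = 1) (tB : B.trace.re = 1) {x y : ℝ} (hx : 0 ≤ x) (hy : 0 ≤ y) :
    x * ent A + y * ent B + Real.negMulLog (x + y) ≤ ent (x • A + y • B) := by
  rcases eq_or_lt_of_le (add_nonneg hx hy) with h0 | h0
  · obtain ⟨rfl, rfl⟩ := (add_eq_zero_iff_of_nonneg hx hy).1 h0.symm
    simp [ent_zero]
  have hM : (x • A + y • B).PosSemidef := (hA.smul hx).add (hB.smul hy)
  have hd := exists_diag hM.1
  set U : Matrix n n ℂ := (hM.1.eigenvectorUnitary : Matrix n n ℂ) with hUdef
  set d := hM.1.eigenvalues with hddef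
  clear_value U d
  have tr : ∑ k, d k = x + y := by rw [← hd.trace_eq]; simp [tA, tB]
  have main : ∀ (C : Matrix n n ℂ) (c : ℝ), C.PosSemidef → C.trace.re = 1 → 0 ≤ c →
      (∀ k, d k = 0 → c * ((Uᴴ * C * U) k k).re = 0) →
      c * ent C + c / (x + y) * Real.negMulLog (x + y) ≤ -trLog (c • C) U d := by
    intro C c hC tC hc hsup
    rcases eq_or_lt_of_le hc with h | h
    · subst h; simp [trLog]
    have := klein (hC.smul h0.le) hd.left hd.right (hd.nonneg hM) (fun k hk => by
      have := (mul_eq_zero.1 (hsup k hk)).resolve_left h.ne'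
      simp [this])
    rw [ent_smul hC.1, trLog_smul, tr] at this
    simp only [Matrix.trace_smul, Complex.smul_re, smul_eq_mul, tC, mul_one, one_mul] at this
    rw [trLog_smul]
    have h2 := mul_le_mul_of_nonneg_left this (div_nonneg hc h0.le)
    have h3 : c / (x + y) * (x + y) = c := div_mul_cancel₀ c h0.ne'
    linear_combination h2 + (-trLog C U d - ent C) * h3
  have hsum : ∀ k, d k = 0 →
      x * ((Uᴴ * A * U) k k).re = 0 ∧ y * ((Uᴴ * B * U) k k).re = 0 := by
    intro k hk
    have := congrArg Complex.re (congrFun (congrFun hd.conj_eq k) k)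
    simp [Matrix.mul_add, Matrix.add_mul, hk] at this
    exact (add_eq_zero_iff_of_nonneg (mul_nonneg hx (conj_diag_nonneg hA U k))
      (mul_nonneg hy (conj_diag_nonneg hB U k))).1 this
  have h1 := main A x hA tA hx fun k hk => (hsum k hk).1
  have h2 := main B y hB tB hy fun k hk => (hsum k hk).2
  rw [← neg_neg (ent (x • A + y • B)), ← hd.trLog_self, trLog_add]
  have h3 : x / (x + y) + y / (x + y) = 1 := by rw [← add_div, div_self h0.ne']
  linear_combination h1 + h2 - Real.negMulLog (x + y) * h3

/-- A crude bound from below for the entropy of a sum. -/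
theorem ent_add_ge {X Y : Matrix n n ℂ} (hX : X.PosSemidef) (hY : Y.PosSemidef) :
    ent X - Y.trace.re * (1 + Real.log (X + Y).trace.re) ≤ ent (X + Y) := by
  have hM := hX.add hY
  have hd := exists_diag hM.1
  set U : Matrix n n ℂ := (hM.1.eigenvectorUnitary : Matrix n n ℂ) with hUdef
  set d := hM.1.eigenvalues with hddef
  clear_value U d
  have hsum : ∀ k, d k = 0 → ((Uᴴ * X * U) k k).re = 0 ∧ ((Uᴴ * Y * U) k k).re = 0 := by
    intro k hk
    have := congrArg Complex.re (congrFun (congrFun hd.conj_eq k) k)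
    simp [Matrix.mul_add, Matrix.add_mul, hk] at this
    exact (add_eq_zero_iff_of_nonneg (conj_diag_nonneg hX U k) (conj_diag_nonneg hY U k)).1 this
  have h1 := klein hX hd.left hd.right (hd.nonneg hM) fun k hk => (hsum k hk).1
  have h2 : trLog Y U d ≤ Y.trace.re * Real.log (X + Y).trace.re := by
    rw [← sum_conj_diag hd.right Y, Finset.sum_mul, trLog]
    refine Finset.sum_le_sum fun k _ => ?_
    rcases eq_or_lt_of_le (hd.nonneg hM k) with h | h
    · simp [(hsum k h.symm).2]
    refine mul_le_mul_of_nonneg_left (Real.log_le_log h ?_) (conj_diag_nonneg hY U k)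
    rw [hd.trace_eq]
    exact Finset.single_le_sum (fun j _ => hd.nonneg hM j) (Finset.mem_univ k)
  have h3 := hd.trLog_self
  rw [trLog_add] at h3
  have h4 := hd.trace_eq
  rw [Matrix.trace_add, Complex.add_re] at h4
  linarith

/-- Continuity of the entropy along a segment starting at a positive semidefinite matrix. -/
theorem tendsto_ent {X Y : Matrix n n ℂ} (hX : X.PosSemidef) (hY : Y.PosSemidef) :
    Tendsto (fun ε : ℝ => ent (X + ε • Y)) (𝓝[>] 0) (𝓝 (ent X)) := by
  have hd := exists_diag hX.1
  set U : Matrix n n ℂ := (hX.1.eigenvectorUnitary : Matrix n n ℂ) with hUdef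
  set x := hX.1.eigenvalues with hxdef
  clear_value U x
  rw [tendsto_order]
  constructor
  · intro a ha
    have hc : Continuous fun ε : ℝ =>
        ε * Y.trace.re - Real.negMulLog (X.trace.re + ε * Y.trace.re) +
          -X.trace.re * Real.log (X.trace.re) := by fun_prop
    set g := fun ε : ℝ => ent X - ε * Y.trace.re *
      (1 + Real.log (X.trace.re + ε * Y.trace.re)) with hg
    have hlim : Tendsto g (𝓝[>] 0) (𝓝 (ent X)) := by
      have h0 : 0 ≤ X.trace.re := (Complex.le_def.1 hX.trace_nonneg).1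
      rcases eq_or_lt_of_le h0 with h | h
      · have : Continuous fun ε : ℝ => ent X - ε * Y.trace.re + Real.negMulLog (ε * Y.trace.re) := by
          fun_prop
        have := this.tendsto 0
        simp only [zero_mul, Real.negMulLog_zero, sub_zero, add_zero] at this
        refine (this.mono_left nhdsWithin_le_nhds).congr fun ε => ?_
        simp [hg, ← h, Real.negMulLog]
        ring
      · have : ContinuousAt g 0 := by
          rw [hg]
          refine ContinuousAt.sub continuousAt_const ((by fun_prop : ContinuousAt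
            (fun ε : ℝ => ε * Y.trace.re) 0).mul (continuousAt_const.add
            (ContinuousAt.log (by fun_prop) (by simp [h.ne']))))
        simpa [hg] using this.tendsto.mono_left nhdsWithin_le_nhds
    filter_upwards [hlim.eventually_const_lt ha, self_mem_nhdsWithin] with ε h1 (h2 : 0 < ε)
    refine lt_of_lt_of_le h1 ?_
    have := ent_add_ge hX (hY.smul h2.le)
    simpa [hg] using this
  · intro a ha
    have hcont : ContinuousAt
        (fun δ : ℝ => -(∑ k, x k * Real.log (x k + δ)) + ∑ _k : n, δ) 0 := by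
      refine ContinuousAt.add (tendsto_finsetSum _ fun k _ => ?_).neg (by fun_prop)
      by_cases h : x k = 0
      · simp only [h, zero_mul]
        exact tendsto_const_nhds
      · exact (continuousAt_const.mul (ContinuousAt.log (by fun_prop) (by simpa using h))).tendsto
    have h0 : -(∑ k, x k * Real.log (x k + 0)) + ∑ _k : n, (0 : ℝ) < a := by
      simpa [hd.ent_eq, Real.negMulLog, Finset.sum_neg_distrib] using ha
    obtain ⟨δ, hδ, hδ0⟩ := (((hcont.tendsto.mono_left (nhdsWithin_le_nhds (s := Set.Ioi 0))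
      ).eventually_lt_const h0).and self_mem_nhdsWithin).exists
    have hδ0' : (0 : ℝ) < δ := hδ0
    have hx : ∀ k, 0 < x k + δ := fun k => by linarith [hd.nonneg hX k]
    have hlim : Continuous fun ε : ℝ =>
        -(trLog X U (fun k => x k + δ) + ε * trLog Y U (fun k => x k + δ))
          + ∑ k, (x k + δ) - (X.trace.re + ε * Y.trace.re) := by fun_prop
    have hval : -(trLog X U (fun k => x k + δ) + 0 * trLog Y U (fun k => x k + δ))
        + ∑ k, (x k + δ) - (X.trace.re + 0 * Y.trace.re) < a := by
      simp only [trLog, hd.conj_eq, diagonal_apply_eq, Complex.ofReal_re, hd.trace_eq,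
        Finset.sum_add_distrib]
      linarith
    filter_upwards [((hlim.tendsto 0).mono_left nhdsWithin_le_nhds).eventually_lt_const hval,
      self_mem_nhdsWithin] with ε h1 (h2 : 0 < ε)
    refine lt_of_le_of_lt ?_ h1
    have := klein (hX.add (hY.smul h2.le)) hd.left hd.right (fun k => (hx k).le)
      (fun k hk => absurd hk (hx k).ne')
    simpa [trLog_add, trLog_smul] using this

end Vale.Agent.P358
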