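import Mathlib

/-!
The scalar functions used in the entropy inequality.
-/

noncomputable section

open MeasureTheory Set Filter Topology

namespace Vale.Agent.P358

/-- Parameters of the scalar problem. -/
structure Par where
  x : ℝ
  y : ℝ
  al : ℝ
  be : ℝ
  τ : ℝ
  hy : 0 < y
  hxy : y ≤ x
  hal : 0 ≤ al
  hbe : 0 ≤ be
  hτ : 0 ≤ τ

theorem tangent_ident (t r x T D E : ℝ) (hE : E = x * T - D) (h1 : t ^ 2 + T * t + D ≠ 0)
    (h2 : t ^ 2 + T * t * r + D * r ^ 2 ≠ 0) :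
    (t + x) / (t ^ 2 + T * t + D)
      + t * (t ^ 2 + 2 * x * t + E) / (t ^ 2 + T * t + D) ^ 2 * (r - 1)
      - r * (t + x * r) / (t ^ 2 + T * t * r + D * r ^ 2)
      = (r - 1) ^ 2 * t * (t * ((T - x) * t ^ 2 + 2 * D * t + x * D)
          + D * r * (t ^ 2 + 2 * x * t + E))
        / ((t ^ 2 + T * t + D) ^ 2 * (t ^ 2 + T * t * r + D * r ^ 2)) := by
  subst hE
  have e : (t + x) / (t ^ 2 + T * t + D)
      = (t + x) * (t ^ 2 + T * t + D) / (t ^ 2 + T * t + D) ^ 2 := by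
    generalize t ^ 2 + T * t + D = w at h1 ⊢
    field_simp
  rw [e, div_mul_eq_mul_div, ← add_div, div_sub_div _ _ (pow_ne_zero 2 h1) h2]
  congr 1
  ring

namespace Par

variable (P : Par)

def den (t : ℝ) : ℝ :=
  (t + P.x) * (t + P.y) + P.τ * (P.al * (t + P.y) + P.be * (t + P.x))

def fF (t : ℝ) : ℝ := (t + P.y) / P.den t

def fG (t : ℝ) : ℝ := (t + P.x) / P.den t

def fH (t : ℝ) : ℝ :=
  t * (t ^ 2 + 2 * P.x * t + (P.x ^ 2 + P.τ * P.al * (P.x - P.y))) / P.den t ^ 2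

theorem hx : 0 < P.x := P.hy.trans_le P.hxy

theorem le_den {t : ℝ} (ht : 0 ≤ t) : (t + P.x) * (t + P.y) ≤ P.den t := by
  have := P.hal; have := P.hbe; have := P.hτ; have := P.hy; have := P.hx
  unfold den
  exact le_add_of_nonneg_right (by positivity)

theorem den_pos {t : ℝ} (ht : 0 ≤ t) : 0 < P.den t := by
  have := P.hy; have := P.hx
  exact lt_of_lt_of_le (by positivity) (P.le_den ht)

theorem fF_nonneg {t : ℝ} (ht : 0 ≤ t) : 0 ≤ P.fF t :=
  div_nonneg (by linarith [P.hy]) (P.den_pos ht).le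

theorem fG_nonneg {t : ℝ} (ht : 0 ≤ t) : 0 ≤ P.fG t :=
  div_nonneg (by linarith [P.hx]) (P.den_pos ht).le

theorem fF_le {t : ℝ} (ht : 0 ≤ t) : P.fF t ≤ 1 / (t + P.x) := by
  have h1 : 0 < t + P.x := by linarith [P.hx]
  rw [fF, div_le_div_iff₀ (P.den_pos ht) h1, one_mul]
  linarith [P.le_den ht]

theorem fG_le {t : ℝ} (ht : 0 ≤ t) : P.fG t ≤ 1 / (t + P.y) := by
  have h1 : 0 < t + P.y := by linarith [P.hy]
  rw [fG, div_le_div_iff₀ (P.den_pos ht) h1, one_mul]
  exact P.le_den ht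

theorem ident₁ {t : ℝ} (ht : 0 ≤ t) :
    (t + P.x + P.τ * P.al) * P.fF t + P.τ * P.be * P.fG t = 1 := by
  have := (P.den_pos ht).ne'
  unfold fF fG
  field_simp
  unfold den
  ring

theorem ident₂ {t : ℝ} (ht : 0 ≤ t) :
    (t + P.y + P.τ * P.be) * P.fG t + P.τ * P.al * P.fF t = 1 := by
  have := (P.den_pos ht).ne'
  unfold fF fG
  field_simp
  unfold den
  ring

theorem fH_nonneg {t : ℝ} (ht : 0 ≤ t) : 0 ≤ P.fH t := by
  have := P.hx; have := P.hal; have := P.hτ; have := sub_nonneg.2 P.hxy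
  unfold fH
  positivity

theorem fH_le {t : ℝ} (ht : 0 ≤ t) : P.fH t ≤ P.fG t := by
  have h := P.den_pos ht
  have hx := P.hx; have hy := P.hy; have hα := P.hal; have hβ := P.hbe; have hτ := P.hτ
  unfold fH fG
  rw [div_le_div_iff₀ (by positivity) h, ← sub_nonneg]
  have : (t + P.x) * P.den t ^ 2
      - t * (t ^ 2 + 2 * P.x * t + (P.x ^ 2 + P.τ * P.al * (P.x - P.y))) * P.den t
      = P.den t * ((P.y + P.τ * (P.al + P.be)) * t ^ 2
          + 2 * (P.x * P.y + P.τ * (P.al * P.y + P.be * P.x)) * t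
          + P.x * (P.x * P.y + P.τ * (P.al * P.y + P.be * P.x))) := by
    unfold den; ring
  rw [this]
  positivity

/-- The tangent inequality coming from concavity. -/
theorem fG_tangent {t r : ℝ} (ht : 0 < t) (hr : 0 < r) :
    P.fG (t / r) ≤ P.fG t + P.fH t * (r - 1) := by
  have hx := P.hx; have hy := P.hy; have hα := P.hal; have hβ := P.hbe; have hτ := P.hτ
  have hxy := sub_nonneg.2 P.hxy
  set D := P.x * P.y + P.τ * (P.al * P.y + P.be * P.x) with hD
  set T := P.x + P.y + P.τ * (P.al + P.be) with hT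
  set E := P.x ^ 2 + P.τ * P.al * (P.x - P.y) with hE
  have hden : ∀ v : ℝ, P.den v = v ^ 2 + T * v + D := fun v => by rw [hD, hT]; unfold den; ring
  have hd1 := P.den_pos ht.le
  have hd2 := P.den_pos (div_pos ht hr).le
  rw [hden] at hd1 hd2
  have hq : 0 < t ^ 2 + T * t * r + D * r ^ 2 := by
    have : t ^ 2 + T * t * r + D * r ^ 2 = r ^ 2 * ((t / r) ^ 2 + T * (t / r) + D) := by field_simp
    rw [this]; positivity
  have hfr : P.fG (t / r) = r * (t + P.x * r) / (t ^ 2 + T * t * r + D * r ^ 2) := by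
    rw [fG, hden]
    field_simp
  have hfH : P.fH t = t * (t ^ 2 + 2 * P.x * t + E) / (t ^ 2 + T * t + D) ^ 2 := by
    rw [fH, hden]
  rw [hfr, hfH, fG, hden, ← sub_nonneg]
  have e1 : E = P.x * T - D := by rw [hE, hT, hD]; ring
  have e2 : P.y + P.τ * (P.al + P.be) = T - P.x := by rw [hT]; ring
  rw [tangent_ident _ _ _ _ _ _ e1 hd1.ne' hq.ne', ← e2]
  have : 0 ≤ E := by rw [hE]; positivity
  have : 0 ≤ D := by rw [hD]; positivity
  positivity

theorem continuousOn_den : ContinuousOn P.den (Ici 0) := by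
  unfold den; fun_prop

theorem continuousOn_fF : ContinuousOn P.fF (Ici 0) :=
  ContinuousOn.div (by fun_prop) P.continuousOn_den fun _ ht => (P.den_pos ht).ne'

theorem continuousOn_fG : ContinuousOn P.fG (Ici 0) :=
  ContinuousOn.div (by fun_prop) P.continuousOn_den fun _ ht => (P.den_pos ht).ne'

theorem continuousOn_fH : ContinuousOn P.fH (Ici 0) :=
  ContinuousOn.div (by fun_prop) (P.continuousOn_den.pow 2)
    fun _ ht => pow_ne_zero 2 (P.den_pos ht).ne'

end Par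

theorem integrableOn_inv_sq : IntegrableOn (fun t : ℝ => 1 / (1 + t) ^ 2) (Ioi 0) := by
  refine integrableOn_Ioi_deriv_of_nonneg' (g := fun t => -(1 + t)⁻¹) (l := 0) (fun t ht => ?_)
    (fun t _ => by positivity) ?_
  · have h : (1 + t) ≠ 0 := by have : (0 : ℝ) ≤ t := ht; positivity
    exact (((hasDerivAt_id t).const_add 1).inv h).neg.congr_deriv (by simp [neg_div])
  · have := (tendsto_inv_atTop_zero.comp
      (tendsto_atTop_add_const_left atTop (1 : ℝ) tendsto_id)).neg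
    simpa [Function.comp_def] using this

theorem integrableOn_of_bound {f : ℝ → ℝ} (hf : ContinuousOn f (Ici 0)) (C : ℝ)
    (h : ∀ t, 0 ≤ t → |f t| ≤ C * (1 / (1 + t) ^ 2)) : IntegrableOn f (Ioi 0) := by
  refine Integrable.mono' (integrableOn_inv_sq.const_mul C)
    ((hf.mono Ioi_subset_Ici_self).aestronglyMeasurable measurableSet_Ioi) ?_
  filter_upwards [ae_restrict_mem measurableSet_Ioi] with t ht
  simpa using h t ht.le

theorem le_inv_one_add {c t : ℝ} (hc : 0 < c) (ht : 0 ≤ t) :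
    1 / (t + c) ≤ (1 / min c 1) * (1 / (1 + t)) := by
  have hm : 0 < min c 1 := lt_min hc one_pos
  rw [div_mul_div_comm, one_mul]
  refine one_div_le_one_div_of_le (by positivity) ?_
  nlinarith [min_le_left c 1, mul_le_mul_of_nonneg_right (min_le_right c 1) ht]

theorem integrableOn_log_kernel {a : ℝ} (ha : 0 < a) :
    IntegrableOn (fun s : ℝ => (a + s)⁻¹ - (1 + s)⁻¹) (Ioi 0) := by
  refine integrableOn_of_bound ?_ (|1 - a| * (1 / min a 1)) fun t ht => ?_
  · refine ContinuousOn.sub (ContinuousOn.inv₀ (by fun_prop) fun s hs => ?_)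
      (ContinuousOn.inv₀ (by fun_prop) fun s hs => ?_) <;>
    · have : (0 : ℝ) ≤ s := hs
      positivity
  · have h1 : (0 : ℝ) < 1 + t := by positivity
    have h2 : (0 : ℝ) < a + t := by positivity
    have e : (a + t)⁻¹ - (1 + t)⁻¹ = (1 - a) * ((1 / (t + a)) * (1 / (1 + t))) := by
      field_simp; ring
    rw [e, abs_mul, abs_of_pos (by positivity : 0 < (1 / (t + a)) * (1 / (1 + t))),
      mul_assoc |1 - a|]
    refine mul_le_mul_of_nonneg_left ?_ (abs_nonneg _)
    calc 1 / (t + a) * (1 / (1 + t)) ≤ 1 / min a 1 * (1 / (1 + t)) * (1 / (1 + t)) :=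
          mul_le_mul_of_nonneg_right (le_inv_one_add ha ht) (by positivity)
      _ = _ := by rw [mul_assoc, div_mul_div_comm, one_mul]; ring

theorem integral_log_kernel {a : ℝ} (ha : 0 < a) :
    ∫ s in Ioi (0 : ℝ), ((a + s)⁻¹ - (1 + s)⁻¹) = -Real.log a := by
  have hd : ∀ s ∈ Ici (0 : ℝ), HasDerivAt (fun s => Real.log (a + s) - Real.log (1 + s))
      ((a + s)⁻¹ - (1 + s)⁻¹) s := fun s hs => by
    have hs' : (0 : ℝ) ≤ s := hs
    have h1 := ((hasDerivAt_id s).const_add a).log (by positivity : a + s ≠ 0)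
    have h2 := ((hasDerivAt_id s).const_add 1).log (by positivity : (1 : ℝ) + s ≠ 0)
    simp only [id_eq, one_div] at h1 h2
    exact h1.sub h2
  have hl : Tendsto (fun s => Real.log (a + s) - Real.log (1 + s)) atTop (𝓝 0) := by
    have h : Tendsto (fun s : ℝ => 1 + (a - 1) * (1 + s)⁻¹) atTop (𝓝 (1 + (a - 1) * 0)) :=
      ((tendsto_inv_atTop_zero.comp
        (tendsto_atTop_add_const_left atTop (1 : ℝ) tendsto_id)).const_mul _).const_add 1
    rw [mul_zero, add_zero] at h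
    have h' := ((Real.continuousAt_log one_ne_zero).tendsto).comp h
    rw [Real.log_one] at h'
    refine h'.congr' ?_
    filter_upwards [eventually_ge_atTop 0] with s hs
    have h1 : (1 : ℝ) + s ≠ 0 := by positivity
    simp only [Function.comp_apply]
    rw [← Real.log_div (by positivity) h1]
    congr 1
    field_simp
    ring
  rw [integral_Ioi_of_hasDerivAt_of_tendsto' hd (integrableOn_log_kernel ha) hl]
  simp

theorem integrableOn_scale {f : ℝ → ℝ} (hf : IntegrableOn f (Ioi 0)) {a : ℝ} (ha : 0 < a) :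
    IntegrableOn (fun s => f (s / a)) (Ioi 0) := by
  simp only [div_eq_inv_mul]
  exact (integrableOn_Ioi_comp_mul_left_iff f 0 (inv_pos.2 ha)).2 (by simpa using hf)

theorem integral_scale (f : ℝ → ℝ) {a : ℝ} (ha : 0 < a) :
    ∫ s in Ioi (0 : ℝ), f (s / a) = a * ∫ s in Ioi (0 : ℝ), f s := by
  simp only [div_eq_inv_mul]
  rw [integral_comp_mul_left_Ioi f 0 (inv_pos.2 ha)]
  simp

namespace Par

variable (P : Par)

def K : ℝ := 1 / min P.y 1

theorem fF_le' {t : ℝ} (ht : 0 ≤ t) : P.fF t ≤ P.K * (1 / (1 + t)) := by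
  refine (P.fF_le ht).trans (le_trans ?_ (le_inv_one_add P.hy ht))
  exact one_div_le_one_div_of_le (by linarith [P.hy]) (by linarith [P.hxy])

theorem fG_le' {t : ℝ} (ht : 0 ≤ t) : P.fG t ≤ P.K * (1 / (1 + t)) :=
  (P.fG_le ht).trans (le_inv_one_add P.hy ht)

theorem integrableOn_mul {f g : ℝ → ℝ} (hf : ContinuousOn f (Ici 0)) (hg : ContinuousOn g (Ici 0))
    (h1 : ∀ t, 0 ≤ t → 0 ≤ f t ∧ f t ≤ P.K * (1 / (1 + t)))
    (h2 : ∀ t, 0 ≤ t → 0 ≤ g t ∧ g t ≤ P.K * (1 / (1 + t))) :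
    IntegrableOn (fun t => f t * g t) (Ioi 0) := by
  refine integrableOn_of_bound (hf.mul hg) (P.K * P.K) fun t ht => ?_
  rw [abs_of_nonneg (mul_nonneg (h1 t ht).1 (h2 t ht).1)]
  calc f t * g t ≤ (P.K * (1 / (1 + t))) * (P.K * (1 / (1 + t))) :=
        mul_le_mul (h1 t ht).2 (h2 t ht).2 (h2 t ht).1 ((h1 t ht).1.trans (h1 t ht).2)
    _ = _ := by field_simp

theorem bF : ∀ t, 0 ≤ t → 0 ≤ P.fF t ∧ P.fF t ≤ P.K * (1 / (1 + t)) :=
  fun _ ht => ⟨P.fF_nonneg ht, P.fF_le' ht⟩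

theorem bG : ∀ t, 0 ≤ t → 0 ≤ P.fG t ∧ P.fG t ≤ P.K * (1 / (1 + t)) :=
  fun _ ht => ⟨P.fG_nonneg ht, P.fG_le' ht⟩

theorem bH : ∀ t, 0 ≤ t → 0 ≤ P.fH t ∧ P.fH t ≤ P.K * (1 / (1 + t)) :=
  fun _ ht => ⟨P.fH_nonneg ht, (P.fH_le ht).trans (P.fG_le' ht)⟩

theorem int_FG : IntegrableOn (fun t => P.fF t * P.fG t) (Ioi 0) :=
  P.integrableOn_mul P.continuousOn_fF P.continuousOn_fG P.bF P.bG

theorem int_FF : IntegrableOn (fun t => P.fF t * P.fF t) (Ioi 0) :=
  P.integrableOn_mul P.continuousOn_fF P.continuousOn_fF P.bF P.bF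

theorem int_GG : IntegrableOn (fun t => P.fG t * P.fG t) (Ioi 0) :=
  P.integrableOn_mul P.continuousOn_fG P.continuousOn_fG P.bG P.bG

theorem int_FH : IntegrableOn (fun t => P.fF t * P.fH t) (Ioi 0) :=
  P.integrableOn_mul P.continuousOn_fF P.continuousOn_fH P.bF P.bH

theorem integral_FH_nonneg : 0 ≤ ∫ t in Ioi (0 : ℝ), P.fF t * P.fH t :=
  setIntegral_nonneg measurableSet_Ioi fun _ ht =>
    mul_nonneg (P.fF_nonneg ht.le) (P.fH_nonneg ht.le)

theorem int_sub (c : ℝ) :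
    IntegrableOn (fun t => (t + c) / P.den t - (1 + t)⁻¹) (Ioi 0) := by
  set T := P.x + P.y + P.τ * (P.al + P.be) with hT
  set D := P.x * P.y + P.τ * (P.al * P.y + P.be * P.x) with hD
  refine integrableOn_of_bound ?_ ((|1 + c - T| + |c - D|) * P.K * P.K) fun t ht => ?_
  · refine ContinuousOn.sub (ContinuousOn.div (by fun_prop) P.continuousOn_den
      fun _ h => (P.den_pos h).ne') (ContinuousOn.inv₀ (by fun_prop) fun s hs => ?_)
    have : (0 : ℝ) ≤ s := hs
    positivity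
  · have h1 : (0 : ℝ) < 1 + t := by positivity
    have h2 := P.den_pos ht
    have e : (t + c) / P.den t - (1 + t)⁻¹ =
        ((1 + c - T) * t + (c - D)) * (1 / (1 + t)) * (1 / P.den t) := by
      field_simp
      rw [hT, hD]; unfold den; ring
    have hd : 1 / P.den t ≤ P.K * (1 / (1 + t)) * (P.K * (1 / (1 + t))) := by
      have a1 := le_inv_one_add P.hy ht
      have a2 : 1 / (t + P.x) ≤ P.K * (1 / (1 + t)) :=
        le_trans (one_div_le_one_div_of_le (by linarith [P.hy]) (by linarith [P.hxy])) a1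
      have hy := P.hy; have hx := P.hx
      calc 1 / P.den t ≤ 1 / ((t + P.x) * (t + P.y)) :=
            one_div_le_one_div_of_le (by positivity) (P.le_den ht)
        _ = (1 / (t + P.x)) * (1 / (t + P.y)) := by rw [div_mul_div_comm, one_mul]
        _ ≤ _ := mul_le_mul a2 a1 (by positivity) (le_trans (by positivity) a2)
    rw [e, abs_mul, abs_mul, abs_of_pos (by positivity : 0 < 1 / (1 + t)),
      abs_of_pos (by positivity : 0 < 1 / P.den t)]
    have hn : |(1 + c - T) * t + (c - D)| ≤ (|1 + c - T| + |c - D|) * (1 + t) := by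
      calc _ ≤ |(1 + c - T) * t| + |c - D| := abs_add_le _ _
        _ ≤ _ := by
          rw [abs_mul, abs_of_nonneg ht]
          nlinarith [abs_nonneg (1 + c - T), abs_nonneg (c - D)]
    calc |(1 + c - T) * t + (c - D)| * (1 / (1 + t)) * (1 / P.den t)
        ≤ (|1 + c - T| + |c - D|) * (1 + t) * (1 / (1 + t))
            * (P.K * (1 / (1 + t)) * (P.K * (1 / (1 + t)))) := by gcongr
      _ = _ := by field_simp

theorem int_F1 : IntegrableOn (fun t => P.fF t - (1 + t)⁻¹) (Ioi 0) := P.int_sub P.y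

theorem int_G1 : IntegrableOn (fun t => P.fG t - (1 + t)⁻¹) (Ioi 0) := P.int_sub P.x

/-- The scalar value. -/
def cst : ℝ :=
  P.al * (∫ t in Ioi (0 : ℝ), (P.fF t - (1 + t)⁻¹))
    + P.be * ∫ t in Ioi (0 : ℝ), (P.fG t - (1 + t)⁻¹)

end Par

end Vale.Agent.P358
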