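import Mathlib
import Vale.Agent.P358.Entropy
import Vale.Agent.P358.Scalar

/-!
The central entropy inequality for a two-by-two block matrix `D + N`.
-/

noncomputable section

open Matrix Finset Filter Topology MeasureTheory
open scoped ComplexOrder

namespace Vale.Agent.P358

variable {n : Type*} [Fintype n] [DecidableEq n]

theorem trace_mul_nonneg {Q N : Matrix n n ℂ} (hQ : Q.PosSemidef) (hN : N.PosSemidef) :
    0 ≤ (Q * N).trace.re := by
  have hd := exists_diag hN.1
  set U : Matrix n n ℂ := (hN.1.eigenvectorUnitary : Matrix n n ℂ) with hUdef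
  set d := hN.1.eigenvalues with hddef
  have : (Q * N).trace = ((Uᴴ * Q * U) * diagonal (fun i => (d i : ℂ))).trace := by
    conv_lhs => rw [hd.eq]
    rw [← Matrix.mul_assoc, Matrix.trace_mul_comm]
    simp only [Matrix.mul_assoc]
  rw [this]
  simp only [Matrix.trace, Matrix.diag_apply, Matrix.mul_diagonal, Complex.re_sum,
    Complex.re_mul_ofReal]
  exact Finset.sum_nonneg fun k _ => mul_nonneg (conj_diag_nonneg hQ U k) (hd.nonneg hN k)

/-- The variational bound for the resolvent. -/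
theorem trial {P Z N : Matrix n n ℂ} (hP : P.PosDef) (hN : N.PosSemidef) (hZ : Zᴴ = Z) :
    2 * (Z * N).trace.re - (Z * P * Z * N).trace.re ≤ (P⁻¹ * N).trace.re := by
  set Q := P⁻¹ - Z with hQ
  have hQh : Qᴴ = Q := by rw [hQ, conjTranspose_sub, hP.inv.1.eq, hZ]
  have h := trace_mul_nonneg (hP.posSemidef.conjTranspose_mul_mul_same Q) hN
  rw [hQh] at h
  have hu : IsUnit P.det := (Matrix.isUnit_iff_isUnit_det P).1 hP.isUnit
  have e : Q * P * Q = P⁻¹ - Z - Z + Z * P * Z := by
    rw [hQ, Matrix.sub_mul, Matrix.nonsing_inv_mul P hu, Matrix.mul_sub, Matrix.sub_mul,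
      Matrix.sub_mul, Matrix.one_mul, Matrix.one_mul, Matrix.mul_assoc Z P P⁻¹,
      Matrix.mul_nonsing_inv P hu, Matrix.mul_one]
    abel
  rw [e, Matrix.add_mul, Matrix.sub_mul, Matrix.sub_mul] at h
  simp only [Matrix.trace_add, Matrix.trace_sub, Complex.add_re, Complex.sub_re] at h
  linarith

/-- The resolvent kernel. -/
def kern (M N : Matrix n n ℂ) (s : ℝ) : ℝ :=
  ((s • (1 : Matrix n n ℂ) + M)⁻¹ * N).trace.re - N.trace.re * (1 + s)⁻¹

theorem kern_eq {M U : Matrix n n ℂ} {d : n → ℝ} (h : Diag M U d) (hd : ∀ k, 0 < d k)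
    (N : Matrix n n ℂ) {s : ℝ} (hs : 0 < s) :
    kern M N s = ∑ k, ((Uᴴ * N * U) k k).re * ((d k + s)⁻¹ - (1 + s)⁻¹) := by
  have h' := h.shift s
  rw [add_comm M] at h'
  have hinv : (s • (1 : Matrix n n ℂ) + M)⁻¹
      = U * diagonal (fun k => (((d k + s)⁻¹ : ℝ) : ℂ)) * Uᴴ := by
    refine Matrix.inv_eq_right_inv ?_
    rw [h'.eq]
    simp only [Matrix.mul_assoc]
    rw [← Matrix.mul_assoc Uᴴ U, h.left, Matrix.one_mul, ← Matrix.mul_assoc (diagonal _),
      Matrix.diagonal_mul_diagonal]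
    have : (fun i => (((d i + s : ℝ)) : ℂ) * (((d i + s)⁻¹ : ℝ) : ℂ)) = fun _ => (1 : ℂ) := by
      funext i
      rw [← Complex.ofReal_mul, mul_inv_cancel₀ (by have := hd i; positivity), Complex.ofReal_one]
    rw [this, Matrix.diagonal_one, Matrix.one_mul, h.right]
  rw [kern, hinv]
  have : (U * diagonal (fun k => (((d k + s)⁻¹ : ℝ) : ℂ)) * Uᴴ * N).trace
      = (diagonal (fun k => (((d k + s)⁻¹ : ℝ) : ℂ)) * (Uᴴ * N * U)).trace := by
    rw [Matrix.mul_assoc U, Matrix.mul_assoc U, Matrix.trace_mul_comm]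
    simp only [Matrix.mul_assoc]
  rw [this, ← sum_conj_diag h.right N, Finset.sum_mul]
  simp only [Matrix.trace, Matrix.diag_apply, Matrix.diagonal_mul, Complex.re_sum,
    Complex.re_ofReal_mul]
  rw [← Finset.sum_sub_distrib]
  exact Finset.sum_congr rfl fun k _ => by ring

theorem integrableOn_kern {M U : Matrix n n ℂ} {d : n → ℝ} (h : Diag M U d) (hd : ∀ k, 0 < d k)
    (N : Matrix n n ℂ) : IntegrableOn (kern M N) (Set.Ioi 0) := by
  refine IntegrableOn.congr_fun ?_ (fun s hs => (kern_eq h hd N hs).symm) measurableSet_Ioi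
  exact integrable_finsetSum _ fun k _ => (integrableOn_log_kernel (hd k)).const_mul _

theorem integral_kern {M U : Matrix n n ℂ} {d : n → ℝ} (h : Diag M U d) (hd : ∀ k, 0 < d k)
    (N : Matrix n n ℂ) : ∫ s in Set.Ioi (0 : ℝ), kern M N s = -trLog N U d := by
  rw [setIntegral_congr_fun measurableSet_Ioi fun s hs => kern_eq h hd N hs,
    integral_finsetSum _ fun k _ => (integrableOn_log_kernel (hd k)).const_mul _, trLog,
    ← Finset.sum_neg_distrib]
  refine Finset.sum_congr rfl fun k _ => ?_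
  rw [integral_const_mul, integral_log_kernel (hd k)]
  ring

/-- The data of the block inequality. -/
structure Blk (n : Type*) [Fintype n] [DecidableEq n] where
  a : n → ℝ
  b : n → ℝ
  Bd : n → ℝ
  Ad : n → ℝ
  D00 : Matrix n n ℂ
  D11 : Matrix n n ℂ
  C : Matrix n n ℂ
  xa : ℝ
  xb : ℝ
  za : ℝ
  zb : ℝ
  al : ℝ
  be : ℝ
  ha : ∀ i, 0 < a i
  hb : ∀ i, 0 < b i
  sa : ∑ i, a i = 1
  sb : ∑ i, b i = 1
  sBd : ∑ i, Bd i = 1
  sAd : ∑ i, Ad i = 1
  d00 : ∀ i, (D00 i i).re = xa * a i + xb * Bd i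
  d11 : ∀ i, (D11 i i).re = za * Ad i + zb * b i
  p00 : D00.PosDef
  p11 : D11.PosDef
  row : ∀ i, ∑ j, Complex.normSq (C i j) / b j ≤ a i
  col : ∀ j, ∑ i, Complex.normSq (C i j) / a i ≤ b j
  hal : 0 ≤ al
  hbe : 0 ≤ be

namespace Blk

variable (K : Blk n)

/-- The rank-deficient part. -/
def N : Matrix (n ⊕ n) (n ⊕ n) ℂ :=
  fromBlocks (diagonal fun i => ((K.al * K.a i : ℝ) : ℂ)) (Real.sqrt (K.al * K.be) • K.C)
    (Real.sqrt (K.al * K.be) • K.Cᴴ) (diagonal fun i => ((K.be * K.b i : ℝ) : ℂ))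

def M (τ : ℝ) : Matrix (n ⊕ n) (n ⊕ n) ℂ := fromBlocks K.D00 0 0 K.D11 + τ • K.N

def x : ℝ := K.xa + K.xb

def y : ℝ := K.za + K.zb

theorem trace_N : K.N.trace.re = K.al + K.be := by
  simp [N, Matrix.trace, Fintype.sum_sum_type, ← Finset.mul_sum, K.sa, K.sb]

theorem posDef_D : (fromBlocks K.D00 0 0 K.D11).PosDef := by
  have h : (fromBlocks K.D00 0 0 K.D11).IsHermitian :=
    IsHermitian.fromBlocks K.p00.1 (by simp) K.p11.1
  refine PosDef.of_dotProduct_mulVec_pos h fun v hv => ?_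
  have e : star v ⬝ᵥ (fromBlocks K.D00 0 0 K.D11 *ᵥ v)
      = star (v ∘ Sum.inl) ⬝ᵥ (K.D00 *ᵥ (v ∘ Sum.inl))
        + star (v ∘ Sum.inr) ⬝ᵥ (K.D11 *ᵥ (v ∘ Sum.inr)) := by
    simp [dotProduct, Fintype.sum_sum_type, fromBlocks_mulVec]
  rw [e]
  by_cases h0 : v ∘ Sum.inl = 0
  · have h1 : v ∘ Sum.inr ≠ 0 := fun h1 => hv (funext fun k => by
      rcases k with i | i
      · exact congrFun h0 i
      · exact congrFun h1 i)
    simpa [h0] using K.p11.dotProduct_mulVec_pos h1
  · exact add_pos_of_pos_of_nonneg (K.p00.dotProduct_mulVec_pos h0)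
      (K.p11.posSemidef.dotProduct_mulVec_nonneg _)

theorem posDef_M (hN : K.N.PosSemidef) {τ : ℝ} (hτ : 0 ≤ τ) : (K.M τ).PosDef :=
  K.posDef_D.add_posSemidef (hN.smul hτ)

/-- The parameters at a given time. -/
def par (hy : 0 < K.y) (hxy : K.y ≤ K.x) (τ : ℝ) (hτ : 0 ≤ τ) : Par :=
  ⟨K.x, K.y, K.al, K.be, τ, hy, hxy, K.hal, K.hbe, hτ⟩

def W (i j : n) : ℝ := Complex.normSq (K.C i j) / (K.a i * K.b j)

def Wb (i : n) : ℝ := ∑ j, Complex.normSq (K.C i j) / K.a i

theorem sum_Wb : ∑ i, K.Wb i ≤ 1 := by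
  unfold Wb
  rw [Finset.sum_comm, ← K.sb]
  exact Finset.sum_le_sum fun j _ => K.col j

/-- The quadratic form at a diagonal trial matrix. -/
theorem quad (τ s : ℝ) (z w : n → ℝ) :
    ((diagonal (Sum.elim (fun i => (z i : ℂ)) (fun j => (w j : ℂ)))) * (s • 1 + K.M τ)
      * (diagonal (Sum.elim (fun i => (z i : ℂ)) (fun j => (w j : ℂ)))) * K.N).trace.re
    = (∑ i, K.al * (z i ^ 2 * K.a i * (s + (K.D00 i i).re + τ * (K.al * K.a i))))
      + (∑ j, K.be * (w j ^ 2 * K.b j * (s + (K.D11 j j).re + τ * (K.be * K.b j))))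
      + 2 * τ * (K.al * K.be) * ∑ i, ∑ j, z i * w j * Complex.normSq (K.C i j) := by
  set c := Real.sqrt (K.al * K.be) with hc
  have hcc : c * c = K.al * K.be := Real.mul_self_sqrt (mul_nonneg K.hal K.hbe)
  set Z := diagonal (Sum.elim (fun i => (z i : ℂ)) (fun j => (w j : ℂ))) with hZ
  have e : (Z * (s • 1 + K.M τ) * Z * K.N).trace.re
      = ∑ k, ∑ l, (Z k k * (s • 1 + K.M τ) k l * Z l l * K.N l k).re := by
    rw [Matrix.trace, Complex.re_sum]
    refine Finset.sum_congr rfl fun k _ => ?_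
    rw [Matrix.diag_apply, Matrix.mul_apply, Complex.re_sum]
    refine Finset.sum_congr rfl fun l _ => ?_
    rw [hZ, Matrix.mul_diagonal, Matrix.diagonal_mul]
    simp
  rw [e]
  simp only [Fintype.sum_sum_type, hZ, diagonal_apply_eq, Sum.elim_inl, Sum.elim_inr, M, N,
    Matrix.add_apply, Matrix.smul_apply, fromBlocks_apply₁₁, fromBlocks_apply₁₂,
    fromBlocks_apply₂₁, fromBlocks_apply₂₂, conjTranspose_apply, Matrix.zero_apply, ← hc]
  simp only [diagonal_apply, Matrix.one_apply, Sum.inl.injEq, Sum.inr.injEq, reduceCtorEq,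
    if_false, smul_zero, zero_add, Complex.real_smul]
  simp only [Finset.sum_add_distrib, mul_ite, mul_zero, apply_ite Complex.re, Complex.zero_re,
    Finset.sum_ite_eq', Finset.mem_univ, if_true]
  have hA : ∀ i j : n, ((z i : ℂ) * ((τ : ℂ) * ((c : ℂ) * K.C i j)) * (w j : ℂ)
      * ((c : ℂ) * star (K.C i j))).re
      = τ * (K.al * K.be) * (z i * w j * Complex.normSq (K.C i j)) := fun i j => by
    rw [← hcc]
    simp [Complex.normSq_apply]
    ring
  have hB : ∀ i j : n, ((w j : ℂ) * ((τ : ℂ) * ((c : ℂ) * star (K.C i j))) * (z i : ℂ)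
      * ((c : ℂ) * K.C i j)).re
      = τ * (K.al * K.be) * (z i * w j * Complex.normSq (K.C i j)) := fun i j => by
    rw [← hcc]
    simp [Complex.normSq_apply]
    ring
  simp only [hA, hB]
  rw [Finset.sum_comm (γ := n) (f := fun j i =>
    τ * (K.al * K.be) * (z i * w j * Complex.normSq (K.C i j)))]
  have d1 : ∀ i : n, ((z i : ℂ) * ((s : ℂ) * 1 + (K.D00 i i + (τ : ℂ) * ((K.al * K.a i : ℝ) : ℂ)))
      * (z i : ℂ) * ((K.al * K.a i : ℝ) : ℂ)).re
      = K.al * (z i ^ 2 * K.a i * (s + (K.D00 i i).re + τ * (K.al * K.a i))) := fun i => by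
    simp; ring
  have d2 : ∀ i : n, ((w i : ℂ) * ((s : ℂ) * 1 + (K.D11 i i + (τ : ℂ) * ((K.be * K.b i : ℝ) : ℂ)))
      * (w i : ℂ) * ((K.be * K.b i : ℝ) : ℂ)).re
      = K.be * (w i ^ 2 * K.b i * (s + (K.D11 i i).re + τ * (K.be * K.b i))) := fun i => by
    simp; ring
  simp only [d1, d2, ← Finset.mul_sum]
  ring

variable (P : Par)

def gA (i : n) (s : ℝ) : ℝ :=
  K.al * (P.fF (s / K.a i) - (1 + s / K.a i)⁻¹)
    + K.al * K.a i * ((K.a i + s)⁻¹ - (1 + s)⁻¹)
    - P.τ * K.al * K.be * (P.fF (s / K.a i) * P.fG (s / K.a i))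
    + K.al * K.xb * (1 - K.Bd i / K.a i) * (P.fF (s / K.a i) * P.fF (s / K.a i))
    + 2 * P.τ * K.al * K.be * (1 - K.Wb i / K.a i) * (P.fF (s / K.a i) * P.fH (s / K.a i))

def gB (j : n) (s : ℝ) : ℝ :=
  K.be * (P.fG (s / K.b j) - (1 + s / K.b j)⁻¹)
    + K.be * K.b j * ((K.b j + s)⁻¹ - (1 + s)⁻¹)
    + P.τ * K.al * K.be * (P.fF (s / K.b j) * P.fG (s / K.b j))
    + K.be * K.za * (1 - K.Ad j / K.b j) * (P.fG (s / K.b j) * P.fG (s / K.b j))

theorem kern_ge (hN : K.N.PosSemidef) (hx : P.x = K.x) (hy : P.y = K.y) (hα : P.al = K.al)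
    (hβ : P.be = K.be) {s : ℝ} (hs : 0 < s) :
    ∑ i, K.gA P i s + ∑ j, K.gB P j s ≤ kern (K.M P.τ) K.N s := by
  set τ := P.τ with hτdef
  have hτ : 0 ≤ τ := P.hτ
  have hP : (s • (1 : Matrix (n ⊕ n) (n ⊕ n) ℂ) + K.M τ).PosDef :=
    PosDef.posSemidef_add (PosSemidef.one.smul hs.le) (K.posDef_M hN hτ)
  set z := fun i => P.fF (s / K.a i) / K.a i with hz
  set w := fun j => P.fG (s / K.b j) / K.b j with hw
  set Z := diagonal (Sum.elim (fun i => (z i : ℂ)) (fun j => (w j : ℂ))) with hZdef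
  have hZ : Zᴴ = Z := by
    rw [hZdef, diagonal_conjTranspose]
    congr 1
    funext k
    rcases k with i | i <;> simp
  have h1 := trial hP hN hZ
  rw [K.quad] at h1
  have h2 : (Z * K.N).trace.re
      = ∑ i, K.al * P.fF (s / K.a i) + ∑ j, K.be * P.fG (s / K.b j) := by
    simp only [Matrix.trace, Matrix.diag_apply, hZdef, Matrix.diagonal_mul, Fintype.sum_sum_type,
      N, fromBlocks_apply₁₁, fromBlocks_apply₂₂, diagonal_apply_eq, Sum.elim_inl, Sum.elim_inr,
      Complex.add_re, Complex.re_sum, ← Complex.ofReal_mul, Complex.ofReal_re]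
    congr 1 <;> refine Finset.sum_congr rfl fun i _ => ?_
    · have := (K.ha i).ne'; simp only [hz]; field_simp
    · have := (K.hb i).ne'; simp only [hw]; field_simp
  rw [h2] at h1
  have hcross : ∀ i, ∑ j, z i * w j * Complex.normSq (K.C i j)
      ≤ P.fF (s / K.a i) * (P.fG (s / K.a i) - P.fH (s / K.a i))
        + P.fF (s / K.a i) * P.fH (s / K.a i) * (K.Wb i / K.a i) := by
    intro i
    have ha := K.ha i
    have ht : 0 < s / K.a i := div_pos hs ha
    have hF := P.fF_nonneg ht.le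
    calc ∑ j, z i * w j * Complex.normSq (K.C i j)
        ≤ ∑ j, (P.fF (s / K.a i) * (P.fG (s / K.a i) - P.fH (s / K.a i))
              * (Complex.normSq (K.C i j) / K.b j / K.a i)
            + P.fF (s / K.a i) * P.fH (s / K.a i) / K.a i
              * (Complex.normSq (K.C i j) / K.a i)) := by
          refine Finset.sum_le_sum fun j _ => ?_
          have hb := K.hb j
          have hr := P.fG_tangent ht (div_pos hb ha)
          have e : s / K.a i / (K.b j / K.a i) = s / K.b j := by field_simp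
          rw [e] at hr
          have h := mul_le_mul_of_nonneg_left hr
            (mul_nonneg hF (div_nonneg (Complex.normSq_nonneg (K.C i j)) (mul_pos ha hb).le))
          calc z i * w j * Complex.normSq (K.C i j)
              = P.fF (s / K.a i) * (Complex.normSq (K.C i j) / (K.a i * K.b j))
                * P.fG (s / K.b j) := by simp only [hz, hw]; field_simp
            _ ≤ _ := h
            _ = _ := by field_simp; ring
      _ = P.fF (s / K.a i) * (P.fG (s / K.a i) - P.fH (s / K.a i))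
            * ((∑ j, Complex.normSq (K.C i j) / K.b j) / K.a i)
          + P.fF (s / K.a i) * P.fH (s / K.a i) / K.a i * K.Wb i := by
          rw [Finset.sum_add_distrib, ← Finset.mul_sum, ← Finset.mul_sum, Finset.sum_div]
          rfl
      _ ≤ _ := by
          refine add_le_add ?_ (le_of_eq (by ring))
          exact mul_le_of_le_one_right (mul_nonneg hF (sub_nonneg.2 (P.fH_le ht.le)))
            ((div_le_one ha).2 (K.row i))
  have h3 := mul_le_mul_of_nonneg_left (Finset.sum_le_sum (s := Finset.univ) fun i _ => hcross i)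
    (mul_nonneg (mul_nonneg zero_le_two hτ) (mul_nonneg K.hal K.hbe))
  rw [Finset.mul_sum (a := 2 * τ * (K.al * K.be))
    (f := fun i => P.fF (s / K.a i) * (P.fG (s / K.a i) - P.fH (s / K.a i))
        + P.fF (s / K.a i) * P.fH (s / K.a i) * (K.Wb i / K.a i))] at h3
  rw [kern, K.trace_N]
  have eA : ∀ i, K.gA P i s = 2 * (K.al * P.fF (s / K.a i))
      - K.al * (z i ^ 2 * K.a i * (s + (K.D00 i i).re + τ * (K.al * K.a i)))
      - 2 * τ * (K.al * K.be) * (P.fF (s / K.a i) * (P.fG (s / K.a i) - P.fH (s / K.a i))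
          + P.fF (s / K.a i) * P.fH (s / K.a i) * (K.Wb i / K.a i))
      - K.al * K.a i * (1 + s)⁻¹ := by
    intro i
    have ha := K.ha i
    have hid := P.ident₁ (div_pos hs ha).le
    rw [hx, hα, hβ, ← hτdef] at hid
    rw [gA, ← hτdef, K.d00]
    have e1 : (1 + s / K.a i)⁻¹ = K.a i * (K.a i + s)⁻¹ := by field_simp
    have e2 : z i ^ 2 * K.a i * (s + (K.xa * K.a i + K.xb * K.Bd i) + τ * (K.al * K.a i))
        = P.fF (s / K.a i) ^ 2 * (s / K.a i + K.xa + τ * K.al + K.xb * (K.Bd i / K.a i)) := by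
      simp only [hz]; field_simp; ring
    rw [e1, e2]
    unfold x at hid
    linear_combination (K.al * P.fF (s / K.a i)) * hid
  have eB : ∀ j, K.gB P j s = 2 * (K.be * P.fG (s / K.b j))
      - K.be * (w j ^ 2 * K.b j * (s + (K.D11 j j).re + τ * (K.be * K.b j)))
      - K.be * K.b j * (1 + s)⁻¹ := by
    intro j
    have hb := K.hb j
    have hid := P.ident₂ (div_pos hs hb).le
    rw [hy, hα, hβ, ← hτdef] at hid
    rw [gB, ← hτdef, K.d11]
    have e1 : (1 + s / K.b j)⁻¹ = K.b j * (K.b j + s)⁻¹ := by field_simp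
    have e2 : w j ^ 2 * K.b j * (s + (K.za * K.Ad j + K.zb * K.b j) + τ * (K.be * K.b j))
        = P.fG (s / K.b j) ^ 2 * (s / K.b j + K.zb + τ * K.be + K.za * (K.Ad j / K.b j)) := by
      simp only [hw]; field_simp; ring
    rw [e1, e2]
    unfold y at hid
    linear_combination (K.be * P.fG (s / K.b j)) * hid
  simp only [eA, eB, Finset.sum_sub_distrib, ← Finset.mul_sum, ← Finset.sum_mul, K.sa, K.sb] at *
  linarith

theorem integrableOn_gA (i : n) : IntegrableOn (K.gA P i) (Set.Ioi 0) := by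
  have ha := K.ha i
  unfold gA
  exact ((((((integrableOn_scale P.int_F1 ha).const_mul _).add
    ((integrableOn_log_kernel ha).const_mul _)).sub
    ((integrableOn_scale P.int_FG ha).const_mul _)).add
    ((integrableOn_scale P.int_FF ha).const_mul _)).add
    ((integrableOn_scale P.int_FH ha).const_mul _))

theorem integrableOn_gB (j : n) : IntegrableOn (K.gB P j) (Set.Ioi 0) := by
  have hb := K.hb j
  unfold gB
  exact (((((integrableOn_scale P.int_G1 hb).const_mul _).add
    ((integrableOn_log_kernel hb).const_mul _)).add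
    ((integrableOn_scale P.int_FG hb).const_mul _)).add
    ((integrableOn_scale P.int_GG hb).const_mul _))

theorem integral_gA (i : n) : ∫ s in Set.Ioi (0 : ℝ), K.gA P i s =
    K.al * (K.a i * ∫ t in Set.Ioi (0 : ℝ), (P.fF t - (1 + t)⁻¹))
      + K.al * Real.negMulLog (K.a i)
      - P.τ * K.al * K.be * (K.a i * ∫ t in Set.Ioi (0 : ℝ), P.fF t * P.fG t)
      + K.al * K.xb * ((K.a i - K.Bd i) * ∫ t in Set.Ioi (0 : ℝ), P.fF t * P.fF t)
      + 2 * P.τ * K.al * K.be * ((K.a i - K.Wb i) * ∫ t in Set.Ioi (0 : ℝ), P.fF t * P.fH t) := by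
  have ha := K.ha i
  have i1 := (integrableOn_scale P.int_F1 ha).const_mul K.al
  have i2 := (integrableOn_log_kernel ha).const_mul (K.al * K.a i)
  have i3 := (integrableOn_scale P.int_FG ha).const_mul (P.τ * K.al * K.be)
  have i4 := (integrableOn_scale P.int_FF ha).const_mul (K.al * K.xb * (1 - K.Bd i / K.a i))
  have i5 := (integrableOn_scale P.int_FH ha).const_mul
    (2 * P.τ * K.al * K.be * (1 - K.Wb i / K.a i))
  have i12 := i1.add i2
  have i123 := i12.sub i3
  have i1234 := i123.add i4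
  simp only [Pi.add_def, Pi.sub_def] at i12 i123 i1234
  unfold gA
  rw [integral_add i1234 i5, integral_add i123 i4, integral_sub i12 i3, integral_add i1 i2,
    integral_const_mul, integral_const_mul, integral_const_mul, integral_const_mul,
    integral_const_mul, integral_log_kernel ha,
    integral_scale (fun t => P.fF t - (1 + t)⁻¹) ha,
    integral_scale (fun t => P.fF t * P.fG t) ha, integral_scale (fun t => P.fF t * P.fF t) ha,
    integral_scale (fun t => P.fF t * P.fH t) ha, Real.negMulLog]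
  field_simp

theorem integral_gB (j : n) : ∫ s in Set.Ioi (0 : ℝ), K.gB P j s =
    K.be * (K.b j * ∫ t in Set.Ioi (0 : ℝ), (P.fG t - (1 + t)⁻¹))
      + K.be * Real.negMulLog (K.b j)
      + P.τ * K.al * K.be * (K.b j * ∫ t in Set.Ioi (0 : ℝ), P.fF t * P.fG t)
      + K.be * K.za * ((K.b j - K.Ad j) * ∫ t in Set.Ioi (0 : ℝ), P.fG t * P.fG t) := by
  have hb := K.hb j
  have i1 := (integrableOn_scale P.int_G1 hb).const_mul K.be
  have i2 := (integrableOn_log_kernel hb).const_mul (K.be * K.b j)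
  have i3 := (integrableOn_scale P.int_FG hb).const_mul (P.τ * K.al * K.be)
  have i4 := (integrableOn_scale P.int_GG hb).const_mul (K.be * K.za * (1 - K.Ad j / K.b j))
  have i12 := i1.add i2
  have i123 := i12.add i3
  simp only [Pi.add_def] at i12 i123
  unfold gB
  rw [integral_add i123 i4, integral_add i12 i3, integral_add i1 i2,
    integral_const_mul, integral_const_mul, integral_const_mul, integral_const_mul,
    integral_log_kernel hb,
    integral_scale (fun t => P.fG t - (1 + t)⁻¹) hb,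
    integral_scale (fun t => P.fF t * P.fG t) hb, integral_scale (fun t => P.fG t * P.fG t) hb,
    Real.negMulLog]
  field_simp

/-- The bound on the derivative along the path. -/
theorem deriv_ge (hN : K.N.PosSemidef) (hx : P.x = K.x) (hy : P.y = K.y) (hα : P.al = K.al)
    (hβ : P.be = K.be) {U : Matrix (n ⊕ n) (n ⊕ n) ℂ} {d : n ⊕ n → ℝ}
    (hD : Diag (K.M P.τ) U d) :
    K.al * ∑ i, Real.negMulLog (K.a i) + K.be * ∑ j, Real.negMulLog (K.b j) + P.cst
      ≤ -trLog K.N U d := by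
  have hd : ∀ k, 0 < d k := hD.pos (K.posDef_M hN P.hτ)
  rw [← integral_kern hD hd]
  have hle := setIntegral_mono_on
    ((integrable_finsetSum Finset.univ fun i _ => K.integrableOn_gA P i).add
      (integrable_finsetSum Finset.univ fun j _ => K.integrableOn_gB P j))
    (integrableOn_kern hD hd K.N) measurableSet_Ioi
    (fun s hs => K.kern_ge P hN hx hy hα hβ hs)
  simp only [Pi.add_apply] at hle
  rw [integral_add (integrable_finsetSum Finset.univ fun i _ => K.integrableOn_gA P i)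
      (integrable_finsetSum Finset.univ fun j _ => K.integrableOn_gB P j),
    integral_finsetSum _ fun i _ => K.integrableOn_gA P i,
    integral_finsetSum _ fun j _ => K.integrableOn_gB P j] at hle
  refine le_trans ?_ hle
  simp only [K.integral_gA, K.integral_gB, Finset.sum_add_distrib, Finset.sum_sub_distrib,
    ← Finset.mul_sum, ← Finset.sum_mul, K.sa, K.sb, K.sBd, K.sAd, Par.cst, hα, hβ]
  have h1 := mul_nonneg (mul_nonneg (mul_nonneg (mul_nonneg (zero_le_two (α := ℝ)) P.hτ) K.hal) K.hbe)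
    (mul_nonneg (sub_nonneg.2 K.sum_Wb) P.integral_FH_nonneg)
  linarith

end Blk

end Vale.Agent.P358
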