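import Mathlib
import Vale.Agent.P358.Core

/-!
Integrating the derivative bound along the path `D + τ N`.
-/

noncomputable section

open Matrix Finset Filter Topology MeasureTheory
open scoped ComplexOrder

namespace Vale.Agent.P358

namespace Blk

variable {n : Type*} [Fintype n] [DecidableEq n] (K : Blk n)

theorem x_nonneg [Nonempty n] : 0 < K.x := by
  have h : ∀ i, 0 < (K.D00 i i).re := fun i => (Complex.lt_def.1 K.p00.diag_pos).1
  have := Finset.sum_pos (fun i _ => h i) Finset.univ_nonempty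
  simpa [K.d00, Finset.sum_add_distrib, ← Finset.mul_sum, K.sa, K.sBd, x] using this

theorem y_nonneg [Nonempty n] : 0 < K.y := by
  have h : ∀ i, 0 < (K.D11 i i).re := fun i => (Complex.lt_def.1 K.p11.diag_pos).1
  have := Finset.sum_pos (fun i _ => h i) Finset.univ_nonempty
  simpa [K.d11, Finset.sum_add_distrib, ← Finset.mul_sum, K.sb, K.sAd, y] using this

/-- The one-dimensional problem with the same parameters. -/
def scalar [Nonempty n] : Blk Unit where
  a := fun _ => 1
  b := fun _ => 1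
  Bd := fun _ => 1
  Ad := fun _ => 1
  D00 := diagonal fun _ => (K.x : ℂ)
  D11 := diagonal fun _ => (K.y : ℂ)
  C := 1
  xa := K.xa
  xb := K.xb
  za := K.za
  zb := K.zb
  al := K.al
  be := K.be
  ha := fun _ => one_pos
  hb := fun _ => one_pos
  sa := by simp
  sb := by simp
  sBd := by simp
  sAd := by simp
  d00 := fun _ => by simp [x]
  d11 := fun _ => by simp [y]
  p00 := posDef_diagonal_iff.2 fun _ => by exact_mod_cast K.x_nonneg
  p11 := posDef_diagonal_iff.2 fun _ => by exact_mod_cast K.y_nonneg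
  row := fun _ => by simp
  col := fun _ => by simp
  hal := K.hal
  hbe := K.hbe

variable [Nonempty n]

theorem scalar_posSemidef : (K.scalar.N).PosSemidef := by
  set v : Unit ⊕ Unit → ℂ :=
    Sum.elim (fun _ => (Real.sqrt K.al : ℂ)) (fun _ => (Real.sqrt K.be : ℂ)) with hv
  have e : K.scalar.N = vecMulVec v (star v) := by
    ext i j
    rcases i with i | i <;> rcases j with j | j <;>
      simp [N, scalar, hv, vecMulVec_apply, ← Complex.ofReal_mul, Real.mul_self_sqrt K.hal,
        Real.mul_self_sqrt K.hbe, Real.sqrt_mul K.hal, mul_comm]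
  rw [e]
  exact posSemidef_vecMulVec_self_star v

theorem scalar_kern (P : Par) (hx : P.x = K.x) (hy : P.y = K.y) (hα : P.al = K.al)
    (hβ : P.be = K.be) {s : ℝ} (hs : 0 < s) :
    kern (K.scalar.M P.τ) K.scalar.N s
      = K.al * (P.fF s - (1 + s)⁻¹) + K.be * (P.fG s - (1 + s)⁻¹) := by
  set X := s • (1 : Matrix (Unit ⊕ Unit) (Unit ⊕ Unit) ℂ) + K.scalar.M P.τ with hX
  set Z := diagonal (Sum.elim (fun _ : Unit => (P.fF s : ℂ)) (fun _ : Unit => (P.fG s : ℂ))) with hZ
  have hP : X.PosDef :=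
    PosDef.posSemidef_add (PosSemidef.one.smul hs.le) (K.scalar.posDef_M K.scalar_posSemidef P.hτ)
  have h1 : ((s + K.x + P.τ * K.al) * P.fF s + P.τ * K.be * P.fG s : ℝ) = 1 := by
    rw [← hx, ← hα, ← hβ]; exact P.ident₁ hs.le
  have h2 : ((s + K.y + P.τ * K.be) * P.fG s + P.τ * K.al * P.fF s : ℝ) = 1 := by
    rw [← hy, ← hα, ← hβ]; exact P.ident₂ hs.le
  set c : ℂ := (Real.sqrt (K.al * K.be) : ℂ) with hc
  have hcc : c * c = (K.al : ℂ) * K.be := by
    rw [hc, ← Complex.ofReal_mul, Real.mul_self_sqrt (mul_nonneg K.hal K.hbe), Complex.ofReal_mul]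
  have h1' := congrArg (fun r : ℝ => (r : ℂ)) h1
  have h2' := congrArg (fun r : ℝ => (r : ℂ)) h2
  push_cast at h1' h2'
  have e : X * (Z * K.scalar.N) = K.scalar.N := by
    ext i j
    rcases i with ⟨⟩ | ⟨⟩ <;> rcases j with ⟨⟩ | ⟨⟩ <;>
      simp [hX, hZ, M, N, scalar, Matrix.mul_apply, Fintype.sum_sum_type,
        ← hc]
    · linear_combination (K.al : ℂ) * h1' + (P.τ : ℂ) * (P.fG s : ℂ) * hcc
    · linear_combination c * h1'
    · linear_combination c * h2'
    · linear_combination (K.be : ℂ) * h2' + (P.τ : ℂ) * (P.fF s : ℂ) * hcc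
  have hu : IsUnit X.det := (Matrix.isUnit_iff_isUnit_det X).1 hP.isUnit
  have e' : X⁻¹ * K.scalar.N = Z * K.scalar.N := by
    conv_lhs => rw [← e]
    rw [← Matrix.mul_assoc, Matrix.nonsing_inv_mul X hu, Matrix.one_mul]
  rw [kern, ← hX, e', K.scalar.trace_N]
  simp [Matrix.trace, Fintype.sum_sum_type, hZ, Matrix.diagonal_mul, N, scalar]
  ring

theorem scalar_deriv (P : Par) (hx : P.x = K.x) (hy : P.y = K.y) (hα : P.al = K.al)
    (hβ : P.be = K.be) {U : Matrix (Unit ⊕ Unit) (Unit ⊕ Unit) ℂ} {d : Unit ⊕ Unit → ℝ}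
    (hD : Diag (K.scalar.M P.τ) U d) : -trLog K.scalar.N U d = P.cst := by
  have hd : ∀ k, 0 < d k := hD.pos (K.scalar.posDef_M K.scalar_posSemidef P.hτ)
  rw [← integral_kern hD hd,
    setIntegral_congr_fun measurableSet_Ioi fun s hs => K.scalar_kern P hx hy hα hβ hs,
    integral_add (P.int_F1.const_mul _) (P.int_G1.const_mul _), integral_const_mul,
    integral_const_mul, Par.cst, hα, hβ]

omit [Nonempty n] in
theorem ent_M_zero : ent (K.M 0) = ent K.D00 + ent K.D11 := by
  simp [M, ent_fromBlocks]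

theorem path_aux (hN : K.N.PosSemidef) (hxy : K.y ≤ K.x) :
    ent K.D00 + ent K.D11 + K.al * ∑ i, Real.negMulLog (K.a i)
      + K.be * ∑ j, Real.negMulLog (K.b j)
      + (ent (K.scalar.M 1) - ent K.scalar.D00 - ent K.scalar.D11) ≤ ent (K.M 1) := by
  set SS := K.al * ∑ i, Real.negMulLog (K.a i) + K.be * ∑ j, Real.negMulLog (K.b j) with hSS
  set P : ℝ → Par := fun τ => K.par K.y_nonneg hxy (max τ 0) (le_max_right _ _)
  have step : ∀ τ τ' : ℝ, 0 ≤ τ → τ ≤ τ' →
      (τ' - τ) * (SS + (P τ').cst - (P τ).cst)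
        ≤ (ent (K.M τ') - ent (K.scalar.M τ')) - (ent (K.M τ) - ent (K.scalar.M τ)) := by
    intro τ τ' h0 hle
    have h0' := h0.trans hle
    have hPτ : (P τ).τ = τ := max_eq_left h0
    have hPτ' : (P τ').τ = τ' := max_eq_left h0'
    have hM' := K.posDef_M hN h0'
    have hd' := exists_diag hM'.1
    set U' : Matrix (n ⊕ n) (n ⊕ n) ℂ := (hM'.1.eigenvectorUnitary : Matrix (n ⊕ n) (n ⊕ n) ℂ)
    set d' := hM'.1.eigenvalues
    have lo := K.deriv_ge (P τ') hN rfl rfl rfl rfl (U := U') (d := d') (by rw [hPτ']; exact hd')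
    have k1 := klein (K.posDef_M hN h0).posSemidef hd'.left hd'.right
      (fun k => (hd'.pos hM' k).le) (fun k hk => absurd hk (hd'.pos hM' k).ne')
    have s1 := hd'.trLog_self
    have e : K.M τ' = K.M τ + (τ' - τ) • K.N := by simp [M, sub_smul]
    have t1 : (K.M τ').trace.re = (K.M τ).trace.re + (τ' - τ) * (K.al + K.be) := by
      rw [e]; simp [K.trace_N]
    rw [← hd'.trace_eq, t1] at k1
    have s1' : trLog (K.M τ') U' d' = trLog (K.M τ) U' d' + (τ' - τ) * trLog K.N U' d' := by
      rw [e, trLog_add, trLog_smul]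
    rw [s1'] at s1
    have hm := K.scalar.posDef_M K.scalar_posSemidef h0
    have hd := exists_diag hm.1
    set U : Matrix (Unit ⊕ Unit) (Unit ⊕ Unit) ℂ :=
      (hm.1.eigenvectorUnitary : Matrix (Unit ⊕ Unit) (Unit ⊕ Unit) ℂ)
    set d := hm.1.eigenvalues
    have hi := K.scalar_deriv (P τ) rfl rfl rfl rfl (U := U) (d := d) (by rw [hPτ]; exact hd)
    have k2 := klein (K.scalar.posDef_M K.scalar_posSemidef h0').posSemidef hd.left hd.right
      (fun k => (hd.pos hm k).le) (fun k hk => absurd hk (hd.pos hm k).ne')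
    have s2 := hd.trLog_self
    have e2 : K.scalar.M τ' = K.scalar.M τ + (τ' - τ) • K.scalar.N := by
      simp [M, sub_smul]
    have t2 : (K.scalar.M τ').trace.re = (K.scalar.M τ).trace.re + (τ' - τ) * (K.al + K.be) := by
      rw [e2, Matrix.trace_add, Matrix.trace_smul, Complex.add_re, Complex.smul_re,
        K.scalar.trace_N]
      rfl
    rw [← hd.trace_eq, t2] at k2
    have s2' : trLog (K.scalar.M τ') U d
        = trLog (K.scalar.M τ) U d + (τ' - τ) * trLog K.scalar.N U d := by
      rw [e2, trLog_add, trLog_smul]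
    rw [s2'] at k2
    have h1 := mul_le_mul_of_nonneg_left lo (sub_nonneg.2 hle)
    rw [← hSS] at h1
    have hi' : (τ' - τ) * -trLog K.scalar.N U d = (τ' - τ) * (P τ).cst := by rw [hi]
    linarith
  have hmain : ∀ m : ℕ, 0 < m →
      SS + (1 / (m : ℝ)) * ((P 1).cst - (P 0).cst)
        ≤ (ent (K.M 1) - ent (K.scalar.M 1)) - (ent (K.M 0) - ent (K.scalar.M 0)) := by
    intro m hm
    have hm' : (0 : ℝ) < m := by exact_mod_cast hm
    set g : ℕ → ℝ := fun k => (ent (K.M (k / m)) - ent (K.scalar.M (k / m))) - (k / m : ℝ) * SS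
      - (1 / (m : ℝ)) * (P (k / m)).cst with hg
    have hmono : Monotone g := monotone_nat_of_le_succ fun k => by
      have h := step (k / m) ((k + 1 : ℕ) / m) (by positivity) (by gcongr; simp)
      have hd : (((k + 1 : ℕ) : ℝ) / m - k / m) = 1 / m := by push_cast; field_simp; ring
      have hk : (((k + 1 : ℕ) : ℝ) / m) * SS = (k / m : ℝ) * SS + (1 / (m : ℝ)) * SS := by
        push_cast; field_simp
      rw [hd] at h
      simp only [hg]
      linarith
    have := hmono (Nat.zero_le m)
    simp only [hg, Nat.cast_zero, zero_div, div_self hm'.ne', zero_mul, one_mul] at this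
    linarith
  have hlim : Tendsto (fun m : ℕ => SS + (1 / (m : ℝ)) * ((P 1).cst - (P 0).cst)) atTop (𝓝 SS) := by
    simpa using ((tendsto_const_div_atTop_nhds_zero_nat (1 : ℝ)).mul_const
      ((P 1).cst - (P 0).cst)).const_add SS
  have := le_of_tendsto hlim ((eventually_gt_atTop 0).mono hmain)
  rw [K.ent_M_zero, K.scalar.ent_M_zero] at this
  linarith

/-- The same data with the two sides exchanged. -/
def swap : Blk n where
  a := K.b
  b := K.a
  Bd := K.Ad
  Ad := K.Bd
  D00 := K.D11
  D11 := K.D00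
  C := K.Cᴴ
  xa := K.zb
  xb := K.za
  za := K.xb
  zb := K.xa
  al := K.be
  be := K.al
  ha := K.hb
  hb := K.ha
  sa := K.sb
  sb := K.sa
  sBd := K.sAd
  sAd := K.sBd
  d00 := fun i => by rw [K.d11]; ring
  d11 := fun i => by rw [K.d00]; ring
  p00 := K.p11
  p11 := K.p00
  row := fun i => by simpa [conjTranspose_apply] using K.col i
  col := fun j => by simpa [conjTranspose_apply] using K.row j
  hal := K.hbe
  hbe := K.hal

omit [Nonempty n] in
theorem swap_N : K.swap.N = K.N.submatrix (Equiv.sumComm n n) (Equiv.sumComm n n) := by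
  ext i j
  rcases i with i | i <;> rcases j with j | j <;> simp [N, swap, mul_comm K.be]

omit [Nonempty n] in
theorem swap_M (τ : ℝ) :
    K.swap.M τ = (K.M τ).submatrix (Equiv.sumComm n n) (Equiv.sumComm n n) := by
  rw [M, swap_N]
  ext i j
  rcases i with i | i <;> rcases j with j | j <;> simp [M, swap]

theorem swap_scalar_M (τ : ℝ) :
    K.swap.scalar.M τ
      = (K.scalar.M τ).submatrix (Equiv.sumComm Unit Unit) (Equiv.sumComm Unit Unit) := by
  ext i j
  rcases i with i | i <;> rcases j with j | j <;>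
    simp [M, N, swap, scalar, x, y, mul_comm K.be, add_comm]

/-- The block entropy inequality. -/
theorem path (hN : K.N.PosSemidef) :
    ent K.D00 + ent K.D11 + K.al * ∑ i, Real.negMulLog (K.a i)
      + K.be * ∑ j, Real.negMulLog (K.b j)
      + (ent (K.scalar.M 1) - Real.negMulLog K.x - Real.negMulLog K.y) ≤ ent (K.M 1) := by
  have e0 : ∀ L : Blk n, ent L.scalar.D00 = Real.negMulLog L.x ∧
      ent L.scalar.D11 = Real.negMulLog L.y := fun L => by
    simp [scalar, ent_diagonal]
  rcases le_total K.y K.x with h | h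
  · have := K.path_aux hN h
    rw [(e0 K).1, (e0 K).2] at this
    exact this
  · have hx : K.swap.x = K.y := add_comm _ _
    have hy : K.swap.y = K.x := add_comm _ _
    have := K.swap.path_aux (by rw [swap_N]; exact hN.submatrix _) (by rw [hx, hy]; exact h)
    rw [(e0 K.swap).1, (e0 K.swap).2, hx, hy, swap_M, swap_scalar_M, ent_submatrix,
      ent_submatrix] at this
    simp only [swap] at this
    linarith

end Blk

end Vale.Agent.P358
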