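import Mathlib
import Vale.Agent.P358.Defs
import Vale.Agent.P358.Path

/-!
One channel use next to a reference system.
-/

noncomputable section

open Matrix Finset Filter Topology
open scoped ComplexOrder

namespace Vale.Agent.P358

variable {n : Type*} [Fintype n] [DecidableEq n]

/-- The channel applied to the first factor of `qubit ⊗ R`. -/
def lift (γ ν : ℝ) (X : Matrix (n ⊕ n) (n ⊕ n) ℂ) : Matrix (n ⊕ n) (n ⊕ n) ℂ :=
  fromBlocks ((1 - γ * ν) • X.toBlocks₁₁ + (γ * (1 - ν)) • X.toBlocks₂₂)
    (Real.sqrt (1 - γ) • X.toBlocks₁₂) (Real.sqrt (1 - γ) • X.toBlocks₂₁)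
    ((γ * ν) • X.toBlocks₁₁ + (1 - γ + γ * ν) • X.toBlocks₂₂)

/-- A real pure input with excited population `p`. -/
def psi (p : ℝ) : Matrix (Fin 2) (Fin 2) ℂ :=
  !![((1 - p : ℝ) : ℂ), (Real.sqrt (p * (1 - p)) : ℂ); (Real.sqrt (p * (1 - p)) : ℂ), (p : ℂ)]

/-- Output entropy of `psi p`. -/
def phi (γ ν p : ℝ) : ℝ := ent (gad γ ν (psi p))

theorem ent_fin_two {M : Matrix (Fin 2) (Fin 2) ℂ} (hM : M.IsHermitian) :
    ent M = Real.negMulLog ((M.trace.re + Real.sqrt (M.trace.re ^ 2 - 4 * M.det.re)) / 2)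
      + Real.negMulLog ((M.trace.re - Real.sqrt (M.trace.re ^ 2 - 4 * M.det.re)) / 2) := by
  have hd := exists_diag hM
  have ht := hd.trace_eq
  have hdet : M.det.re = hM.eigenvalues 0 * hM.eigenvalues 1 := by
    rw [hM.det_eq_prod_eigenvalues, Fin.prod_univ_two]
    simp
  rw [Fin.sum_univ_two] at ht
  rw [hd.ent_eq, Fin.sum_univ_two, ht, hdet,
    show (hM.eigenvalues 0 + hM.eigenvalues 1) ^ 2 - 4 * (hM.eigenvalues 0 * hM.eigenvalues 1)
      = (hM.eigenvalues 0 - hM.eigenvalues 1) ^ 2 by ring, Real.sqrt_sq_eq_abs]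
  rcases le_total (hM.eigenvalues 1) (hM.eigenvalues 0) with h | h
  · rw [abs_of_nonneg (sub_nonneg.2 h)]
    congr 2 <;> ring
  · rw [abs_of_nonpos (sub_nonpos.2 h), add_comm]
    congr 2 <;> ring

theorem gad_psi_isHermitian (γ ν p : ℝ) : (gad γ ν (psi p)).IsHermitian := by
  ext i j
  fin_cases i <;> fin_cases j <;> simp [gad, psi]

theorem continuous_phi (γ ν : ℝ) : Continuous (phi γ ν) := by
  have : phi γ ν = fun p => Real.negMulLog
        (((gad γ ν (psi p)).trace.re + Real.sqrt ((gad γ ν (psi p)).trace.re ^ 2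
          - 4 * (gad γ ν (psi p)).det.re)) / 2)
      + Real.negMulLog (((gad γ ν (psi p)).trace.re - Real.sqrt ((gad γ ν (psi p)).trace.re ^ 2
          - 4 * (gad γ ν (psi p)).det.re)) / 2) :=
    funext fun p => ent_fin_two (gad_psi_isHermitian γ ν p)
  rw [this]
  simp only [Matrix.trace_fin_two, Matrix.det_fin_two, gad, psi, of_apply, cons_val', cons_val_zero,
    cons_val_one, cons_val_fin_one]
  fun_prop

omit [Fintype n] [DecidableEq n] in
theorem diag_re_pos {A : Matrix n n ℂ} (hA : A.PosDef) (i : n) : 0 < (A i i).re :=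
  (Complex.lt_def.1 hA.diag_pos).1

theorem schur_row {u v : n → ℝ} (hv : ∀ j, 0 < v j) {Y : Matrix n n ℂ}
    (h : (fromBlocks (diagonal fun i => (u i : ℂ)) Y Yᴴ
      (diagonal fun j => (v j : ℂ))).PosSemidef) (i : n) :
    ∑ j, Complex.normSq (Y i j) / v j ≤ u i := by
  have := (Complex.le_def.1 (h.dotProduct_mulVec_nonneg
    (Sum.elim (Pi.single i 1) (fun j => -(star (Y i j)) / (v j : ℂ))))).1
  simp only [dotProduct, Fintype.sum_sum_type, fromBlocks_mulVec, Sum.elim_inl, Sum.elim_inr,
    Sum.elim_comp_inl, Sum.elim_comp_inr, Pi.add_apply, mulVec_single_one, mulVec_diagonal,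
    Pi.star_apply, Complex.add_re, Complex.re_sum] at this
  simp only [col_apply, diagonal_apply, mulVec, dotProduct, Pi.single_apply] at this
  have h1 : ∑ x : n, (star (if x = i then (1 : ℂ) else 0)
      * ((if x = i then (u x : ℂ) else 0) + ∑ j, Y x j * (-star (Y i j) / (v j : ℂ)))).re
      = u i - ∑ j, Complex.normSq (Y i j) / v j := by
    rw [Finset.sum_eq_single i (fun b _ hb => by simp [hb]) (by simp)]
    simp only [if_true, star_one, one_mul, Complex.add_re, Complex.ofReal_re, Complex.re_sum,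
      sub_eq_add_neg, ← Finset.sum_neg_distrib]
    congr 1
    refine Finset.sum_congr rfl fun j _ => ?_
    rw [mul_div_assoc', Complex.div_ofReal_re]
    simp [Complex.normSq_apply]
    ring
  have h2 : ∀ j : n, (star (-star (Y i j) / (v j : ℂ))
      * (Yᴴ j i + (v j : ℂ) * (-star (Y i j) / (v j : ℂ)))).re = 0 := by
    intro j
    rw [conjTranspose_apply, mul_div_cancel₀ _ (by exact_mod_cast (hv j).ne'), add_neg_cancel]
    simp
  simp only [h1, h2, Finset.sum_const_zero, Complex.zero_re] at this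
  linarith

/-- The block inequality for a positive definite joint state. -/
theorem lift_ge_posDef [Nonempty n] {γ ν : ℝ} (hγ0 : 0 ≤ γ) (hγ1 : γ ≤ 1) (hν0 : 0 ≤ ν)
    (hν1 : ν ≤ 1) {X : Matrix (n ⊕ n) (n ⊕ n) ℂ} (hX : X.PosDef) (htr : X.trace.re = 1) :
    phi γ ν X.toBlocks₂₂.trace.re + ent X.toBlocks₁₁ + ent X.toBlocks₂₂
      - Real.negMulLog (1 - X.toBlocks₂₂.trace.re) - Real.negMulLog X.toBlocks₂₂.trace.re
      ≤ ent (lift γ ν X) := by
  have h00 : X.toBlocks₁₁.PosDef := hX.submatrix Sum.inl_injective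
  have h11 : X.toBlocks₂₂.PosDef := hX.submatrix Sum.inr_injective
  set p := X.toBlocks₂₂.trace.re with hpdef
  have hp : 0 < p := by
    rw [hpdef, Matrix.trace, Complex.re_sum]
    exact Finset.sum_pos (fun i _ => diag_re_pos h11 i) Finset.univ_nonempty
  have hqeq : X.toBlocks₁₁.trace.re = 1 - p := by
    have : X.trace.re = X.toBlocks₁₁.trace.re + X.toBlocks₂₂.trace.re := by
      simp [Matrix.trace, Fintype.sum_sum_type, toBlocks₁₁, toBlocks₂₂]
    rw [hpdef]; linarith
  set q := 1 - p with hqdef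
  have hq : 0 < q := by
    rw [← hqeq, Matrix.trace, Complex.re_sum]
    exact Finset.sum_pos (fun i _ => diag_re_pos h00 i) Finset.univ_nonempty
  set A := q⁻¹ • X.toBlocks₁₁ with hAdef
  set B := p⁻¹ • X.toBlocks₂₂ with hBdef
  have hA : A.PosDef := h00.smul (inv_pos.2 hq)
  have hB : B.PosDef := h11.smul (inv_pos.2 hp)
  have tA : A.trace.re = 1 := by simp [hAdef, hqeq, hq.ne']
  have tB : B.trace.re = 1 := by simp [hBdef, ← hpdef, hp.ne']
  have hda := exists_diag hA.1
  have hdb := exists_diag hB.1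
  set Ua : Matrix n n ℂ := (hA.1.eigenvectorUnitary : Matrix n n ℂ) with hUa
  set a := hA.1.eigenvalues with ha'
  set Ub : Matrix n n ℂ := (hB.1.eigenvectorUnitary : Matrix n n ℂ) with hUb
  set b := hB.1.eigenvalues with hb'
  have ha : ∀ i, 0 < a i := hda.pos hA
  have hb : ∀ i, 0 < b i := hdb.pos hB
  set V := fromBlocks Ua 0 0 Ub with hV
  have hVl : Vᴴ * V = 1 := by
    simp [hV, fromBlocks_conjTranspose, fromBlocks_multiply, hda.left, hdb.left, fromBlocks_one]
  have hVr : V * Vᴴ = 1 := by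
    simp [hV, fromBlocks_conjTranspose, fromBlocks_multiply, hda.right, hdb.right, fromBlocks_one]
  set Y := Uaᴴ * X.toBlocks₁₂ * Ub with hY
  have hX21 : X.toBlocks₂₁ = X.toBlocks₁₂ᴴ := by
    ext i j
    exact (hX.1.apply (Sum.inr i) (Sum.inl j)).symm
  have e00 : X.toBlocks₁₁ = q • A := by rw [hAdef, smul_smul, mul_inv_cancel₀ hq.ne', one_smul]
  have e11 : X.toBlocks₂₂ = p • B := by rw [hBdef, smul_smul, mul_inv_cancel₀ hp.ne', one_smul]
  have hd00 : Uaᴴ * X.toBlocks₁₁ * Ua = diagonal (fun i => ((q * a i : ℝ) : ℂ)) := by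
    rw [e00]; exact (hda.smul q).conj_eq
  have hd11 : Ubᴴ * X.toBlocks₂₂ * Ub = diagonal (fun i => ((p * b i : ℝ) : ℂ)) := by
    rw [e11]; exact (hdb.smul p).conj_eq
  have hconj : Vᴴ * X * V = fromBlocks (diagonal fun i => ((q * a i : ℝ) : ℂ)) Y Yᴴ
      (diagonal fun i => ((p * b i : ℝ) : ℂ)) := by
    conv_lhs => rw [← fromBlocks_toBlocks X]
    simp only [hV, fromBlocks_conjTranspose, conjTranspose_zero, fromBlocks_multiply,
      Matrix.zero_mul, Matrix.mul_zero, add_zero, zero_add, hd00, hd11]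
    rw [hX21, hY, conjTranspose_mul, conjTranspose_mul, conjTranspose_conjTranspose,
      Matrix.mul_assoc Ubᴴ]
  have hX' : (fromBlocks (diagonal fun i => ((q * a i : ℝ) : ℂ)) Y Yᴴ
      (diagonal fun i => ((p * b i : ℝ) : ℂ))).PosSemidef :=
    hconj ▸ hX.posSemidef.conjTranspose_mul_mul_same V
  have hX'' : (fromBlocks (diagonal fun i => ((p * b i : ℝ) : ℂ)) Yᴴ Yᴴᴴ
      (diagonal fun i => ((q * a i : ℝ) : ℂ))).PosSemidef := by
    have := hX'.submatrix (Equiv.sumComm n n)
    rw [Equiv.sumComm_apply, fromBlocks_submatrix_sum_swap_sum_swap] at this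
    rwa [conjTranspose_conjTranspose]
  have rowb := schur_row (fun j => mul_pos hp (hb j)) hX'
  have colb := schur_row (fun j => mul_pos hq (ha j)) hX''
  set c00 := 1 - γ * ν with hc00
  set be := (1 - γ) * p / c00 with hbe
  have hc00' : 0 ≤ c00 := sub_nonneg.2 (mul_le_one₀ hγ1 hν0 hν1)
  have hbe0 : 0 ≤ be := div_nonneg (mul_nonneg (sub_nonneg.2 hγ1) hp.le) hc00'
  have hdc : c00 = 0 → 1 - γ = 0 := by
    intro h
    nlinarith [mul_le_mul_of_nonneg_left hν1 hγ0]
  have hzb : be ≤ (1 - γ + γ * ν) * p := by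
    rcases eq_or_lt_of_le hc00' with h | h
    · rw [hbe, ← h, div_zero]
      exact mul_nonneg (add_nonneg (sub_nonneg.2 hγ1) (mul_nonneg hγ0 hν0)) hp.le
    · rw [hbe, div_le_iff₀ h, hc00]
      nlinarith [mul_nonneg (mul_nonneg (mul_nonneg hγ0 hν0) (mul_nonneg hγ0 (sub_nonneg.2 hν1)))
        hp.le]
  have hsq : Real.sqrt (c00 * q * be) * (Real.sqrt (p * q))⁻¹ = Real.sqrt (1 - γ) := by
    have hpq : 0 < Real.sqrt (p * q) := Real.sqrt_pos.2 (mul_pos hp hq)
    rw [mul_inv_eq_iff_eq_mul₀ hpq.ne', ← Real.sqrt_mul (sub_nonneg.2 hγ1)]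
    congr 1
    rcases eq_or_lt_of_le hc00' with h | h
    · simp [← h, hdc h.symm]
    · rw [hbe]; field_simp
  have key : ∀ ε : ℝ, 0 < ε →
      (1 + ε) * (q * ent A + p * ent B) + ent (gad γ ν (psi p) + ε • diagonal ![(p : ℂ), (q : ℂ)])
        ≤ ent (lift γ ν X + ε • fromBlocks X.toBlocks₂₂ 0 0 X.toBlocks₁₁) := by
    intro ε hε
    have hxb : 0 < (γ * (1 - ν) + ε) * p :=
      mul_pos (add_pos_of_nonneg_of_pos (mul_nonneg hγ0 (sub_nonneg.2 hν1)) hε) hp
    have hza : 0 < (γ * ν + ε) * q :=
      mul_pos (add_pos_of_nonneg_of_pos (mul_nonneg hγ0 hν0) hε) hq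
    have hUinj : ∀ U : Matrix n n ℂ, Uᴴ * U = 1 → Function.Injective U.mulVec := fun U hU u v h => by
      simpa [hU] using congrArg (fun w => Uᴴ *ᵥ w) h
    have hB' : (Uaᴴ * B * Ua).PosDef := hB.conjTranspose_mul_mul_same (hUinj _ hda.left)
    have hA' : (Ubᴴ * A * Ub).PosDef := hA.conjTranspose_mul_mul_same (hUinj _ hdb.left)
    have hdiag : (diagonal fun i => ((b i : ℝ) : ℂ)).PosSemidef :=
      posSemidef_diagonal_iff.2 fun i => by exact_mod_cast (hb i).le
    let K : Blk n :=
      { a := a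
        b := b
        Bd := fun i => ((Uaᴴ * B * Ua) i i).re
        Ad := fun i => ((Ubᴴ * A * Ub) i i).re
        D00 := ((γ * (1 - ν) + ε) * p) • (Uaᴴ * B * Ua)
        D11 := ((γ * ν + ε) * q) • (Ubᴴ * A * Ub)
          + ((1 - γ + γ * ν) * p - be) • diagonal (fun i => ((b i : ℝ) : ℂ))
        C := (Real.sqrt (p * q))⁻¹ • Y
        xa := 0
        xb := (γ * (1 - ν) + ε) * p
        za := (γ * ν + ε) * q
        zb := (1 - γ + γ * ν) * p - be
        al := c00 * q
        be := be
        ha := ha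
        hb := hb
        sa := by rw [← hda.trace_eq, tA]
        sb := by rw [← hdb.trace_eq, tB]
        sBd := by rw [sum_conj_diag hda.right, tB]
        sAd := by rw [sum_conj_diag hdb.right, tA]
        d00 := fun i => by simp
        d11 := fun i => by simp
        p00 := hB'.smul hxb
        p11 := (hA'.smul hza).add_posSemidef (hdiag.smul (sub_nonneg.2 hzb))
        row := fun i => by
          have h := rowb i
          have e : ∑ j, Complex.normSq (((Real.sqrt (p * q))⁻¹ • Y) i j) / b j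
              = (∑ j, Complex.normSq (Y i j) / (p * b j)) / q := by
            rw [Finset.sum_div]
            refine Finset.sum_congr rfl fun j _ => ?_
            rw [Matrix.smul_apply, Complex.real_smul, map_mul, Complex.normSq_ofReal, ← mul_inv,
              Real.mul_self_sqrt (mul_pos hp hq).le]
            have := hb j
            field_simp
          rw [e, div_le_iff₀ hq]
          linarith
        col := fun j => by
          have h := colb j
          have e : ∑ i, Complex.normSq (((Real.sqrt (p * q))⁻¹ • Y) i j) / a i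
              = (∑ i, Complex.normSq (Yᴴ j i) / (q * a i)) / p := by
            rw [Finset.sum_div]
            refine Finset.sum_congr rfl fun i _ => ?_
            rw [Matrix.smul_apply, Complex.real_smul, map_mul, Complex.normSq_ofReal, ← mul_inv,
              Real.mul_self_sqrt (mul_pos hp hq).le, conjTranspose_apply, Complex.star_def,
              Complex.normSq_conj]
            have := ha i
            field_simp
          rw [e, div_le_iff₀ hp]
          linarith
        hal := mul_nonneg hc00' hq.le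
        hbe := hbe0 }
    have hN : K.N.PosSemidef := by
      set r := Real.sqrt (c00 * q / q) with hr
      set t := Real.sqrt (be / p) with ht
      set S : Matrix (n ⊕ n) (n ⊕ n) ℂ := fromBlocks (r • 1) 0 0 (t • 1) with hS
      have hrt : r * t = Real.sqrt (c00 * q * be) * (Real.sqrt (p * q))⁻¹ := by
        rw [hr, ht, ← Real.sqrt_mul (div_nonneg (mul_nonneg hc00' hq.le) hq.le), ← Real.sqrt_inv,
          ← Real.sqrt_mul (mul_nonneg (mul_nonneg hc00' hq.le) hbe0)]
        congr 1
        field_simp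
      have e : K.N = Sᴴ * fromBlocks (diagonal fun i => ((q * a i : ℝ) : ℂ)) Y Yᴴ
          (diagonal fun i => ((p * b i : ℝ) : ℂ)) * S := by
        simp only [hS, fromBlocks_conjTranspose, conjTranspose_zero, conjTranspose_smul,
          conjTranspose_one, star_trivial, fromBlocks_multiply, Matrix.zero_mul, Matrix.mul_zero,
          add_zero, zero_add, Matrix.smul_mul, Matrix.mul_smul, Matrix.one_mul, Matrix.mul_one,
          smul_smul]
        rw [Blk.N]
        simp only [K, conjTranspose_smul, star_trivial, smul_smul, mul_comm t r, hrt,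
          ← diagonal_smul]
        congr 1
        · congr 1
          funext i
          simp only [Pi.smul_apply, Complex.real_smul, ← Complex.ofReal_mul, hr,
            Real.mul_self_sqrt (div_nonneg (mul_nonneg hc00' hq.le) hq.le)]
          congr 1
          field_simp
        · congr 1
          funext i
          simp only [Pi.smul_apply, Complex.real_smul, ← Complex.ofReal_mul, ht,
            Real.mul_self_sqrt (div_nonneg hbe0 hp.le)]
          congr 1
          field_simp
      rw [e]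
      exact hX'.conjTranspose_mul_mul_same S
    have h := K.path hN
    have eM : K.M 1 = Vᴴ * (lift γ ν X + ε • fromBlocks X.toBlocks₂₂ 0 0 X.toBlocks₁₁) * V := by
      simp only [hV, lift, fromBlocks_conjTranspose, conjTranspose_zero, fromBlocks_smul, smul_zero,
        fromBlocks_add, add_zero, fromBlocks_multiply, Matrix.zero_mul, Matrix.mul_zero, zero_add,
        Matrix.mul_add, Matrix.add_mul, Matrix.smul_mul, Matrix.mul_smul, hd00, hd11, Blk.M,
        one_smul, Blk.N, K, conjTranspose_smul, star_trivial, smul_smul, hsq]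
      have f00 : Uaᴴ * X.toBlocks₂₂ * Ua = p • (Uaᴴ * B * Ua) := by
        rw [e11, Matrix.mul_smul, Matrix.smul_mul]
      have f11 : Ubᴴ * X.toBlocks₁₁ * Ub = q • (Ubᴴ * A * Ub) := by
        rw [e00, Matrix.mul_smul, Matrix.smul_mul]
      have f21 : Ubᴴ * X.toBlocks₂₁ * Ua = Yᴴ := by
        rw [hX21, hY, conjTranspose_mul, conjTranspose_mul, conjTranspose_conjTranspose,
          Matrix.mul_assoc]
      simp only [f00, f11, f21, ← hY]
      congr 1
      · ext i j
        by_cases hij : i = j <;> simp [hij, hc00] <;> ring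
      · ext i j
        by_cases hij : i = j <;> simp [hij] <;> ring
    rw [eM] at h
    rw [show ent (Vᴴ * (lift γ ν X + ε • fromBlocks X.toBlocks₂₂ 0 0 X.toBlocks₁₁) * V)
      = ent (lift γ ν X + ε • fromBlocks X.toBlocks₂₂ 0 0 X.toBlocks₁₁) by
      conv_lhs => arg 1; arg 2; rw [← conjTranspose_conjTranspose V]
      exact ent_conj (by rw [conjTranspose_conjTranspose]; exact hVr) _] at h
    let e : Unit ⊕ Unit ≃ Fin 2 :=
      { toFun := Sum.elim (fun _ => 0) (fun _ => 1)
        invFun := ![Sum.inl (), Sum.inr ()]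
        left_inv := fun u => by rcases u with ⟨⟩ | ⟨⟩ <;> rfl
        right_inv := fun i => by fin_cases i <;> rfl }
    have em : K.scalar.M 1
        = (gad γ ν (psi p) + ε • diagonal ![(p : ℂ), (q : ℂ)]).submatrix e e := by
      have hs : Real.sqrt (c00 * q * be) = Real.sqrt (1 - γ) * Real.sqrt (p * (1 - p)) := by
        rw [← hsq, inv_mul_cancel_right₀ (Real.sqrt_pos.2 (mul_pos hp hq)).ne']
      ext i j
      rcases i with ⟨⟩ | ⟨⟩ <;> rcases j with ⟨⟩ | ⟨⟩ <;>
        simp [Blk.M, Blk.N, Blk.scalar, Blk.x, Blk.y, K, e, gad, psi, hs]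
      · simp [hqdef, hc00]; ring
      · simp [hqdef, hc00]; ring
    rw [em, ent_submatrix] at h
    have sA : ∑ i, Real.negMulLog (a i) = ent A := hda.ent_eq.symm
    have sB : ∑ i, Real.negMulLog (b i) = ent B := hdb.ent_eq.symm
    have sB' : ent (Uaᴴ * B * Ua) = ent B := by
      conv_lhs => arg 1; arg 2; rw [← conjTranspose_conjTranspose Ua]
      exact ent_conj (by rw [conjTranspose_conjTranspose]; exact hda.right) B
    have sA' : ent (Ubᴴ * A * Ub) = ent A := by
      conv_lhs => arg 1; arg 2; rw [← conjTranspose_conjTranspose Ub]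
      exact ent_conj (by rw [conjTranspose_conjTranspose]; exact hdb.right) A
    have tB' : (Uaᴴ * B * Ua).trace.re = 1 := by rw [trace_conj hda.right, tB]
    have tA' : (Ubᴴ * A * Ub).trace.re = 1 := by rw [trace_conj hdb.right, tA]
    have tb : (diagonal fun i => ((b i : ℝ) : ℂ)).trace.re = 1 := by
      rw [trace_diagonal]
      simp [← hdb.trace_eq, tB]
    have m1 := ent_mix hA'.posSemidef hdiag tA' tb hza.le (sub_nonneg.2 hzb)
    rw [sA', ent_diagonal, sB] at m1
    simp only [K, Blk.x, Blk.y, zero_add, sA, sB] at h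
    rw [ent_smul hB'.1, sB', tB'] at h
    linarith
  have hlim : Tendsto (fun ε : ℝ => (1 + ε) * (q * ent A + p * ent B)
      + ent (gad γ ν (psi p) + ε • diagonal ![(p : ℂ), (q : ℂ)])) (𝓝[>] 0)
      (𝓝 ((q * ent A + p * ent B) + phi γ ν p)) := by
    refine Tendsto.add ?_ (tendsto_ent ?_ ?_)
    · have : Continuous fun ε : ℝ => (1 + ε) * (q * ent A + p * ent B) := by fun_prop
      simpa using (this.tendsto 0).mono_left nhdsWithin_le_nhds
    · have e : gad γ ν (psi p) = (lift γ ν (fromBlocks (diagonal fun _ : Unit => (q : ℂ))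
          (diagonal fun _ : Unit => (Real.sqrt (p * q) : ℂ))
          (diagonal fun _ : Unit => (Real.sqrt (p * q) : ℂ))
          (diagonal fun _ : Unit => (p : ℂ)))).submatrix
            ![Sum.inl (), Sum.inr ()] ![Sum.inl (), Sum.inr ()] := by
        ext i j
        fin_cases i <;> fin_cases j <;> simp [gad, psi, lift, hqdef] <;> ring
      rw [e]
      refine PosSemidef.submatrix ?_ _
      set v : Unit ⊕ Unit → ℂ :=
        Sum.elim (fun _ => (Real.sqrt q : ℂ)) (fun _ => (Real.sqrt p : ℂ)) with hv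
      set w₁ : Matrix (Unit ⊕ Unit) (Unit ⊕ Unit) ℂ :=
        fromBlocks (Real.sqrt c00 • 1) 0 0 (Real.sqrt (be / p) • 1) with hw₁
      have hb' : 0 ≤ (γ * ν) * q := mul_nonneg (mul_nonneg hγ0 hν0) hq.le
      have e2 : lift γ ν (fromBlocks (diagonal fun _ : Unit => (q : ℂ))
          (diagonal fun _ : Unit => (Real.sqrt (p * q) : ℂ))
          (diagonal fun _ : Unit => (Real.sqrt (p * q) : ℂ)) (diagonal fun _ : Unit => (p : ℂ)))
          = w₁ᴴ * vecMulVec v (star v) * w₁
            + diagonal (Sum.elim (fun _ => ((γ * (1 - ν) * p : ℝ) : ℂ))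
              (fun _ => ((γ * ν * q + ((1 - γ + γ * ν) * p - be) : ℝ) : ℂ))) := by
        have s1 : Real.sqrt c00 * Real.sqrt c00 = c00 := Real.mul_self_sqrt hc00'
        have s2 : Real.sqrt (be / p) * Real.sqrt (be / p) = be / p :=
          Real.mul_self_sqrt (div_nonneg hbe0 hp.le)
        have s3 : Real.sqrt q * Real.sqrt q = q := Real.mul_self_sqrt hq.le
        have s4 : Real.sqrt p * Real.sqrt p = p := Real.mul_self_sqrt hp.le
        have s5 : Real.sqrt c00 * Real.sqrt q * (Real.sqrt p * Real.sqrt (be / p))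
            = Real.sqrt (1 - γ) * Real.sqrt (p * q) := by
          rw [← hsq, inv_mul_cancel_right₀ (Real.sqrt_pos.2 (mul_pos hp hq)).ne',
            ← Real.sqrt_mul hc00', ← Real.sqrt_mul hp.le, mul_div_cancel₀ _ hp.ne',
            ← Real.sqrt_mul (mul_nonneg hc00' hq.le)]
        ext i j
        rcases i with ⟨⟩ | ⟨⟩ <;> rcases j with ⟨⟩ | ⟨⟩ <;>
          simp [lift, hw₁, hv, Matrix.mul_apply, Fintype.sum_sum_type, vecMulVec_apply,
            Complex.ext_iff]
        · linear_combination (-(Real.sqrt q * Real.sqrt q)) * s1 - c00 * s3 + 0 * hc00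
        · linear_combination -s5
        · linear_combination -s5
        · linear_combination (-(Real.sqrt p * Real.sqrt p)) * s2 - (be / p) * s4
            - (mul_div_cancel₀ be hp.ne')
      rw [e2]
      refine ((posSemidef_vecMulVec_self_star v).conjTranspose_mul_mul_same w₁).add
        (posSemidef_diagonal_iff.2 fun k => ?_)
      rcases k with k | k
      · exact Complex.zero_le_real.2 (mul_nonneg (mul_nonneg hγ0 (sub_nonneg.2 hν1)) hp.le)
      · exact Complex.zero_le_real.2 (add_nonneg hb' (sub_nonneg.2 hzb))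
    · refine posSemidef_diagonal_iff.2 fun k => ?_
      fin_cases k <;> simp [hp.le, hq.le]
  have hpos : (lift γ ν X).PosSemidef ∧ (fromBlocks X.toBlocks₂₂ 0 0 X.toBlocks₁₁).PosSemidef := by
    have hb0 : ∀ (P Q : Matrix n n ℂ), P.PosSemidef → Q.PosSemidef →
        (fromBlocks P 0 0 Q).PosSemidef := by
      intro P Q hP hQ
      refine PosSemidef.of_dotProduct_mulVec_nonneg
        (IsHermitian.fromBlocks hP.1 (by simp) hQ.1) fun v => ?_
      have e : star v ⬝ᵥ (fromBlocks P 0 0 Q *ᵥ v)
          = star (v ∘ Sum.inl) ⬝ᵥ (P *ᵥ (v ∘ Sum.inl))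
            + star (v ∘ Sum.inr) ⬝ᵥ (Q *ᵥ (v ∘ Sum.inr)) := by
        simp [dotProduct, Fintype.sum_sum_type, fromBlocks_mulVec]
      rw [e]
      exact add_nonneg (hP.dotProduct_mulVec_nonneg _) (hQ.dotProduct_mulVec_nonneg _)
    refine ⟨?_, hb0 _ _ h11.posSemidef h00.posSemidef⟩
    set w : Matrix (n ⊕ n) (n ⊕ n) ℂ :=
      fromBlocks (Real.sqrt c00 • 1) 0 0 (Real.sqrt (be / p) • 1) with hw
    have e : lift γ ν X = wᴴ * X * w + fromBlocks ((γ * (1 - ν)) • X.toBlocks₂₂) 0 0
        ((γ * ν) • X.toBlocks₁₁ + (((1 - γ + γ * ν) * p - be) / p) • X.toBlocks₂₂) := by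
      have s2 : Real.sqrt (be / p) * Real.sqrt (be / p) = be / p :=
        Real.mul_self_sqrt (div_nonneg hbe0 hp.le)
      have s5 : Real.sqrt c00 * Real.sqrt (be / p) = Real.sqrt (1 - γ) := by
        rw [← hsq, ← Real.sqrt_mul hc00', ← Real.sqrt_inv, ← Real.sqrt_mul
          (mul_nonneg (mul_nonneg hc00' hq.le) hbe0)]
        congr 1
        field_simp
      conv_rhs => arg 1; arg 1; arg 2; rw [← fromBlocks_toBlocks X]
      simp only [hw, fromBlocks_conjTranspose, conjTranspose_zero, conjTranspose_smul,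
        conjTranspose_one, star_trivial, fromBlocks_multiply, Matrix.zero_mul, Matrix.mul_zero,
        add_zero, zero_add, Matrix.smul_mul, Matrix.mul_smul, Matrix.one_mul, Matrix.mul_one,
        smul_smul, fromBlocks_add, lift, Real.mul_self_sqrt hc00', s2, s5,
        mul_comm (Real.sqrt (be / p)) (Real.sqrt c00)]
      congr 1
      rw [add_left_comm, ← add_smul]
      congr 2
      field_simp
      ring
    rw [e]
    exact (hX.posSemidef.conjTranspose_mul_mul_same w).add (hb0 _ _
      (h11.posSemidef.smul (mul_nonneg hγ0 (sub_nonneg.2 hν1)))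
      ((h00.posSemidef.smul (mul_nonneg hγ0 hν0)).add
        (h11.posSemidef.smul (div_nonneg (sub_nonneg.2 hzb) hp.le))))
  have := le_of_tendsto_of_tendsto hlim (tendsto_ent hpos.1 hpos.2)
    (eventually_nhdsWithin_of_forall key)
  have l00 : ent X.toBlocks₁₁ = q * ent A + Real.negMulLog q := by
    rw [e00, ent_smul hA.1, tA, one_mul]
  have l11 : ent X.toBlocks₂₂ = p * ent B + Real.negMulLog p := by
    rw [e11, ent_smul hB.1, tB, one_mul]
  linarith

end Vale.Agent.P358
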