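import Mathlib
import Vale.Agent.P358.Lift

/-!
Tensor powers: one step of recursion, marginals and product inputs.
-/

noncomputable section

open Matrix Finset Filter Topology
open scoped ComplexOrder

namespace Vale.Agent.P358

/-- Splitting off the first qubit. -/
def cut (n : ℕ) : (Fin n → Fin 2) ⊕ (Fin n → Fin 2) ≃ (Fin (n + 1) → Fin 2) where
  toFun := Sum.elim (fun x => (Fin.cons 0 x : Fin (n + 1) → Fin 2))
    (fun x => (Fin.cons 1 x : Fin (n + 1) → Fin 2))
  invFun x := if x 0 = 0 then Sum.inl (Fin.tail x) else Sum.inr (Fin.tail x)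
  left_inv := by rintro (x | x) <;> simp
  right_inv x := by
    rcases Fin.exists_fin_two.1 ⟨x 0, rfl⟩ with h | h <;>
    · simp only [h, one_ne_zero, if_true, if_false, Sum.elim_inl, Sum.elim_inr]
      rw [← h]; exact Fin.cons_self_tail x

theorem tensor_cut {n : ℕ} (K : Matrix (Fin 2) (Fin 2) ℂ)
    (A : Fin n → Matrix (Fin 2) (Fin 2) ℂ) :
    (tensor (Fin.cons K A : Fin (n + 1) → Matrix (Fin 2) (Fin 2) ℂ)).submatrix (cut n) (cut n)
      = fromBlocks (K 0 0 • tensor A) (K 0 1 • tensor A) (K 1 0 • tensor A) (K 1 1 • tensor A) := by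
  ext x y
  rcases x with x | x <;> rcases y with y | y <;> simp [tensor, cut, Fin.prod_univ_succ]

/-- The channel applied to every qubit of the reference system. -/
def spect (γ ν : ℝ) (n : ℕ) (ρ : Matrix (Fin (n + 1) → Fin 2) (Fin (n + 1) → Fin 2) ℂ) :
    Matrix ((Fin n → Fin 2) ⊕ (Fin n → Fin 2)) ((Fin n → Fin 2) ⊕ (Fin n → Fin 2)) ℂ :=
  ∑ w : Fin n → Fin 4,
    fromBlocks (tensor fun i => gadKraus γ ν (w i)) 0 0 (tensor fun i => gadKraus γ ν (w i))
      * ρ.submatrix (cut n) (cut n)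
      * (fromBlocks (tensor fun i => gadKraus γ ν (w i)) 0 0
          (tensor fun i => gadKraus γ ν (w i)))ᴴ

variable {γ ν : ℝ}

theorem gadPow_add (n : ℕ) (ρ σ : Matrix (Fin n → Fin 2) (Fin n → Fin 2) ℂ) :
    gadPow γ ν n (ρ + σ) = gadPow γ ν n ρ + gadPow γ ν n σ := by
  simp [gadPow, Matrix.mul_add, Matrix.add_mul, Finset.sum_add_distrib]

theorem gadPow_smul (n : ℕ) (c : ℝ) (ρ : Matrix (Fin n → Fin 2) (Fin n → Fin 2) ℂ) :
    gadPow γ ν n (c • ρ) = c • gadPow γ ν n ρ := by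
  simp [gadPow, Finset.smul_sum]

theorem gadPow_sum (n : ℕ) {α : Type*} (s : Finset α)
    (ρ : α → Matrix (Fin n → Fin 2) (Fin n → Fin 2) ℂ) :
    gadPow γ ν n (∑ a ∈ s, ρ a) = ∑ a ∈ s, gadPow γ ν n (ρ a) := by
  simp only [gadPow, Matrix.mul_sum, Matrix.sum_mul]
  exact Finset.sum_comm

theorem gadPow_posSemidef (n : ℕ) {ρ : Matrix (Fin n → Fin 2) (Fin n → Fin 2) ℂ}
    (h : ρ.PosSemidef) : (gadPow γ ν n ρ).PosSemidef :=
  posSemidef_sum _ fun _ _ => h.mul_mul_conjTranspose_same _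

theorem gadPow_isHermitian (n : ℕ) {ρ : Matrix (Fin n → Fin 2) (Fin n → Fin 2) ℂ}
    (h : ρ.PosSemidef) : (gadPow γ ν n ρ).IsHermitian :=
  (gadPow_posSemidef n h).1

theorem spect_posSemidef (n : ℕ) {ρ : Matrix (Fin (n + 1) → Fin 2) (Fin (n + 1) → Fin 2) ℂ}
    (h : ρ.PosSemidef) : (spect γ ν n ρ).PosSemidef :=
  posSemidef_sum _ fun _ _ => (h.submatrix _).mul_mul_conjTranspose_same _

theorem spect_eq (n : ℕ) (ρ : Matrix (Fin (n + 1) → Fin 2) (Fin (n + 1) → Fin 2) ℂ) :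
    spect γ ν n ρ = fromBlocks (gadPow γ ν n (ρ.submatrix (cut n) (cut n)).toBlocks₁₁)
      (gadPow γ ν n (ρ.submatrix (cut n) (cut n)).toBlocks₁₂)
      (gadPow γ ν n (ρ.submatrix (cut n) (cut n)).toBlocks₂₁)
      (gadPow γ ν n (ρ.submatrix (cut n) (cut n)).toBlocks₂₂) := by
  unfold spect gadPow
  generalize ρ.submatrix (cut n) (cut n) = R
  conv_lhs => enter [2, w, 1, 2]; rw [← fromBlocks_toBlocks R]
  simp only [fromBlocks_conjTranspose, conjTranspose_zero, fromBlocks_multiply, Matrix.zero_mul,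
    Matrix.mul_zero, add_zero, zero_add]
  ext x y
  rcases x with x | x <;> rcases y with y | y <;> simp [Matrix.sum_apply]

theorem gadKraus_table (hγ0 : 0 ≤ γ) (hγ1 : γ ≤ 1) (hν0 : 0 ≤ ν) (hν1 : ν ≤ 1)
    (ρ : Matrix (Fin 2) (Fin 2) ℂ) :
    ∑ k, gadKraus γ ν k * ρ * (gadKraus γ ν k)ᴴ = gad γ ν ρ := by
  have a : ((Real.sqrt (1 - γ) : ℝ) : ℂ) ^ 2 = 1 - (γ : ℂ) := by
    rw [← Complex.ofReal_pow, Real.sq_sqrt (sub_nonneg.2 hγ1)]; simp
  have b : ((Real.sqrt γ : ℝ) : ℂ) ^ 2 = (γ : ℂ) := by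
    rw [← Complex.ofReal_pow, Real.sq_sqrt hγ0]
  have c : ((Real.sqrt ν : ℝ) : ℂ) ^ 2 = (ν : ℂ) := by
    rw [← Complex.ofReal_pow, Real.sq_sqrt hν0]
  have d : ((Real.sqrt (1 - ν) : ℝ) : ℂ) ^ 2 = 1 - (ν : ℂ) := by
    rw [← Complex.ofReal_pow, Real.sq_sqrt (sub_nonneg.2 hν1)]; simp
  ext i j
  fin_cases i <;> fin_cases j <;>
    simp [gad, gadKraus, Fin.sum_univ_four, Matrix.vecMul, dotProduct, Matrix.mul_apply,
      Fin.sum_univ_two] <;>
    ring_nf <;> simp only [a, b, c, d] <;> ring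

theorem gadPow_succ (hγ0 : 0 ≤ γ) (hγ1 : γ ≤ 1) (hν0 : 0 ≤ ν) (hν1 : ν ≤ 1) (n : ℕ)
    (ρ : Matrix (Fin (n + 1) → Fin 2) (Fin (n + 1) → Fin 2) ℂ) :
    (gadPow γ ν (n + 1) ρ).submatrix (cut n) (cut n) = lift γ ν (spect γ ν n ρ) := by
  set R := ρ.submatrix (cut n) (cut n) with hR
  have e : (gadPow γ ν (n + 1) ρ).submatrix (cut n) (cut n)
      = ∑ k : Fin 4, ∑ w : Fin n → Fin 4,
        (tensor (Fin.cons (gadKraus γ ν k) (fun i => gadKraus γ ν (w i)) :
          Fin (n + 1) → Matrix (Fin 2) (Fin 2) ℂ)).submatrix (cut n) (cut n) * R *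
        ((tensor (Fin.cons (gadKraus γ ν k) (fun i => gadKraus γ ν (w i)) :
          Fin (n + 1) → Matrix (Fin 2) (Fin 2) ℂ)).submatrix (cut n) (cut n))ᴴ := by
    rw [gadPow, ← (Fin.consEquiv fun _ => Fin 4).sum_comp, Fintype.sum_prod_type, hR]
    ext x y
    simp only [submatrix_apply, Matrix.sum_apply]
    refine Finset.sum_congr rfl fun k _ => Finset.sum_congr rfl fun w _ => ?_
    rw [conjTranspose_submatrix, submatrix_mul_equiv, submatrix_mul_equiv, submatrix_apply]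
    have : (fun i => gadKraus γ ν ((Fin.consEquiv fun _ => Fin 4) (k, w) i))
        = (Fin.cons (gadKraus γ ν k) (fun i => gadKraus γ ν (w i)) :
          Fin (n + 1) → Matrix (Fin 2) (Fin 2) ℂ) := by
      funext i
      refine Fin.cases ?_ (fun j => ?_) i <;> simp
    rw [this]
  rw [e, Finset.sum_comm]
  have step : ∀ w : Fin n → Fin 4, ∑ k : Fin 4,
      (tensor (Fin.cons (gadKraus γ ν k) (fun i => gadKraus γ ν (w i)) :
          Fin (n + 1) → Matrix (Fin 2) (Fin 2) ℂ)).submatrix (cut n) (cut n) * R *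
        ((tensor (Fin.cons (gadKraus γ ν k) (fun i => gadKraus γ ν (w i)) :
          Fin (n + 1) → Matrix (Fin 2) (Fin 2) ℂ)).submatrix (cut n) (cut n))ᴴ
      = lift γ ν (fromBlocks (tensor fun i => gadKraus γ ν (w i)) 0 0
          (tensor fun i => gadKraus γ ν (w i)) * R
          * (fromBlocks (tensor fun i => gadKraus γ ν (w i)) 0 0
            (tensor fun i => gadKraus γ ν (w i)))ᴴ) := by
    intro w
    set T := tensor fun i => gadKraus γ ν (w i)
    have blockeq : fromBlocks T 0 0 T * R * (fromBlocks T 0 0 T)ᴴ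
        = fromBlocks (T * R.toBlocks₁₁ * Tᴴ) (T * R.toBlocks₁₂ * Tᴴ)
          (T * R.toBlocks₂₁ * Tᴴ) (T * R.toBlocks₂₂ * Tᴴ) := by
      conv_lhs => arg 1; arg 2; rw [← fromBlocks_toBlocks R]
      simp only [fromBlocks_conjTranspose, conjTranspose_zero, fromBlocks_multiply,
        Matrix.zero_mul, Matrix.mul_zero, add_zero, zero_add]
    conv_lhs =>
      enter [2, k]
      rw [tensor_cut, ← fromBlocks_toBlocks R, fromBlocks_conjTranspose, fromBlocks_multiply,
        fromBlocks_multiply]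
    rw [blockeq, lift, toBlocks_fromBlocks₁₁, toBlocks_fromBlocks₁₂, toBlocks_fromBlocks₂₁,
      toBlocks_fromBlocks₂₂]
    simp only [conjTranspose_smul, Matrix.smul_mul, Matrix.mul_smul, Matrix.add_mul, smul_add,
      smul_smul]
    have hs : ∀ (i i' : Fin 2) (Z : Matrix (Fin 2) (Fin 2) ℂ),
        (gad γ ν Z) i i' = ∑ k, ∑ j, ∑ j', gadKraus γ ν k i j * Z j j' * star (gadKraus γ ν k i' j') := by
      intro i i' Z
      rw [← gadKraus_table hγ0 hγ1 hν0 hν1, Matrix.sum_apply]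
      refine Finset.sum_congr rfl fun k _ => ?_
      simp only [Matrix.mul_apply, conjTranspose_apply, Finset.sum_mul]
      rw [Finset.sum_comm]
    ext x y
    rcases x with x | x <;> rcases y with y | y
    all_goals
      simp only [Matrix.sum_apply, fromBlocks_apply₁₁, fromBlocks_apply₁₂, fromBlocks_apply₂₁,
        fromBlocks_apply₂₂, Matrix.add_apply, Matrix.smul_apply, smul_eq_mul, Complex.real_smul]
    · have h := hs 0 0 !![(T * R.toBlocks₁₁ * Tᴴ) x y, (T * R.toBlocks₁₂ * Tᴴ) x y;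
        (T * R.toBlocks₂₁ * Tᴴ) x y, (T * R.toBlocks₂₂ * Tᴴ) x y]
      simp only [gad, Fin.sum_univ_two, of_apply, cons_val', cons_val_zero, cons_val_one,
        cons_val_fin_one] at h
      refine Eq.trans (Finset.sum_congr rfl fun k _ => ?_) (h.symm.trans ?_)
      · ring
      · push_cast; ring
    · have h := hs 0 1 !![(T * R.toBlocks₁₁ * Tᴴ) x y, (T * R.toBlocks₁₂ * Tᴴ) x y;
        (T * R.toBlocks₂₁ * Tᴴ) x y, (T * R.toBlocks₂₂ * Tᴴ) x y]
      simp only [gad, Fin.sum_univ_two, of_apply, cons_val', cons_val_zero, cons_val_one,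
        cons_val_fin_one] at h
      refine Eq.trans (Finset.sum_congr rfl fun k _ => ?_) (h.symm.trans ?_)
      · ring
      · push_cast; ring
    · have h := hs 1 0 !![(T * R.toBlocks₁₁ * Tᴴ) x y, (T * R.toBlocks₁₂ * Tᴴ) x y;
        (T * R.toBlocks₂₁ * Tᴴ) x y, (T * R.toBlocks₂₂ * Tᴴ) x y]
      simp only [gad, Fin.sum_univ_two, of_apply, cons_val', cons_val_zero, cons_val_one,
        cons_val_fin_one] at h
      refine Eq.trans (Finset.sum_congr rfl fun k _ => ?_) (h.symm.trans ?_)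
      · ring
      · push_cast; ring
    · have h := hs 1 1 !![(T * R.toBlocks₁₁ * Tᴴ) x y, (T * R.toBlocks₁₂ * Tᴴ) x y;
        (T * R.toBlocks₂₁ * Tᴴ) x y, (T * R.toBlocks₂₂ * Tᴴ) x y]
      simp only [gad, Fin.sum_univ_two, of_apply, cons_val', cons_val_zero, cons_val_one,
        cons_val_fin_one] at h
      refine Eq.trans (Finset.sum_congr rfl fun k _ => ?_) (h.symm.trans ?_)
      · ring
      · push_cast; ring
  rw [Finset.sum_congr rfl fun w _ => step w, spect, ← hR]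
  have : ∀ (s : Finset (Fin n → Fin 4))
      (f : (Fin n → Fin 4) → Matrix ((Fin n → Fin 2) ⊕ (Fin n → Fin 2))
        ((Fin n → Fin 2) ⊕ (Fin n → Fin 2)) ℂ),
      ∑ w ∈ s, lift γ ν (f w) = lift γ ν (∑ w ∈ s, f w) := by
    intro s f
    ext x y
    rcases x with x | x <;> rcases y with y | y <;>
      simp [lift, toBlocks₁₁, toBlocks₁₂, toBlocks₂₁, toBlocks₂₂, Matrix.sum_apply,
        Finset.sum_add_distrib, Finset.mul_sum]
  exact this _ _

/-- Population of the excited level at site `i`, extended linearly. -/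
def pop {n : ℕ} (i : Fin n) (ρ : Matrix (Fin n → Fin 2) (Fin n → Fin 2) ℂ) : ℝ :=
  ∑ x, if x i = 1 then (ρ x x).re else 0

theorem pop_zero {n : ℕ} (ρ : Matrix (Fin (n + 1) → Fin 2) (Fin (n + 1) → Fin 2) ℂ) :
    pop 0 ρ = (ρ.submatrix (cut n) (cut n)).toBlocks₂₂.trace.re := by
  rw [pop, ← (cut n).sum_comp, Fintype.sum_sum_type]
  simp [cut, Matrix.trace, toBlocks₂₂]

theorem pop_succ {n : ℕ} (i : Fin n)
    (ρ : Matrix (Fin (n + 1) → Fin 2) (Fin (n + 1) → Fin 2) ℂ) :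
    pop i.succ ρ = pop i (ρ.submatrix (cut n) (cut n)).toBlocks₁₁
      + pop i (ρ.submatrix (cut n) (cut n)).toBlocks₂₂ := by
  rw [pop, ← (cut n).sum_comp, Fintype.sum_sum_type]
  simp [cut, pop, toBlocks₁₁, toBlocks₂₂]

theorem pop_add {n : ℕ} (i : Fin n) (ρ σ : Matrix (Fin n → Fin 2) (Fin n → Fin 2) ℂ) :
    pop i (ρ + σ) = pop i ρ + pop i σ := by
  simp only [pop, ← Finset.sum_add_distrib]
  exact Finset.sum_congr rfl fun x _ => by split_ifs <;> simp

theorem pop_smul {n : ℕ} (i : Fin n) (c : ℝ) (ρ : Matrix (Fin n → Fin 2) (Fin n → Fin 2) ℂ) :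
    pop i (c • ρ) = c * pop i ρ := by
  simp only [pop, Finset.mul_sum]
  exact Finset.sum_congr rfl fun x _ => by split_ifs <;> simp

theorem trace_cut {n : ℕ} (ρ : Matrix (Fin (n + 1) → Fin 2) (Fin (n + 1) → Fin 2) ℂ) :
    ρ.trace = (ρ.submatrix (cut n) (cut n)).toBlocks₁₁.trace
      + (ρ.submatrix (cut n) (cut n)).toBlocks₂₂.trace := by
  rw [Matrix.trace, ← (cut n).sum_comp, Fintype.sum_sum_type]
  rfl

theorem trace_gadPow (hγ0 : 0 ≤ γ) (hγ1 : γ ≤ 1) (hν0 : 0 ≤ ν) (hν1 : ν ≤ 1) :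
    ∀ (n : ℕ) (ρ : Matrix (Fin n → Fin 2) (Fin n → Fin 2) ℂ),
      (gadPow γ ν n ρ).trace = ρ.trace := by
  intro n
  induction n with
  | zero =>
    intro ρ
    simp [gadPow, tensor, Matrix.trace, Matrix.mul_apply]
  | succ n ih =>
    intro ρ
    rw [trace_cut, trace_cut ρ, gadPow_succ hγ0 hγ1 hν0 hν1, spect_eq]
    simp only [lift, toBlocks_fromBlocks₁₁, toBlocks_fromBlocks₂₂, Matrix.trace_add,
      Matrix.trace_smul, ih, Complex.real_smul]
    push_cast
    ring

theorem pop_gadPow (hγ0 : 0 ≤ γ) (hγ1 : γ ≤ 1) (hν0 : 0 ≤ ν) (hν1 : ν ≤ 1) :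
    ∀ (n : ℕ) (i : Fin n) (ρ : Matrix (Fin n → Fin 2) (Fin n → Fin 2) ℂ),
      pop i (gadPow γ ν n ρ) = (1 - γ) * pop i ρ + γ * ν * ρ.trace.re := by
  intro n
  induction n with
  | zero => exact fun i => i.elim0
  | succ n ih =>
    intro i ρ
    rw [trace_cut, Complex.add_re]
    refine Fin.cases ?_ (fun i => ?_) i
    · rw [pop_zero, pop_zero, gadPow_succ hγ0 hγ1 hν0 hν1, spect_eq]
      simp only [lift, toBlocks_fromBlocks₁₁, toBlocks_fromBlocks₂₂, Matrix.trace_add,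
        Matrix.trace_smul, trace_gadPow hγ0 hγ1 hν0 hν1, Complex.add_re, Complex.smul_re,
        smul_eq_mul]
      ring
    · rw [pop_succ, pop_succ, gadPow_succ hγ0 hγ1 hν0 hν1, spect_eq]
      simp only [lift, toBlocks_fromBlocks₁₁, toBlocks_fromBlocks₂₂, pop_add, pop_smul, ih]
      ring

theorem pop_mem {n : ℕ} (i : Fin n) {ρ : Matrix (Fin n → Fin 2) (Fin n → Fin 2) ℂ}
    (h : ρ.PosSemidef) (ht : ρ.trace.re = 1) : pop i ρ ∈ Set.Icc (0 : ℝ) 1 := by
  have h0 : ∀ x, 0 ≤ (ρ x x).re := fun x => (Complex.le_def.1 h.diag_nonneg).1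
  constructor
  · exact Finset.sum_nonneg fun x _ => by split_ifs <;> simp [h0 x]
  · rw [← ht, Matrix.trace, Complex.re_sum]
    exact Finset.sum_le_sum fun x _ => by split_ifs <;> simp [h0 x]

theorem trace_lift {ι : Type*} [Fintype ι] (γ ν : ℝ) (X : Matrix (ι ⊕ ι) (ι ⊕ ι) ℂ) :
    (lift γ ν X).trace.re = X.trace.re := by
  have h : ∀ Y : Matrix (ι ⊕ ι) (ι ⊕ ι) ℂ,
      Y.trace.re = Y.toBlocks₁₁.trace.re + Y.toBlocks₂₂.trace.re := fun Y => by
    simp [Matrix.trace, Fintype.sum_sum_type, toBlocks₁₁, toBlocks₂₂]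
  rw [h, h X]
  simp only [lift, toBlocks_fromBlocks₁₁, toBlocks_fromBlocks₂₂, Matrix.trace_add,
    Matrix.trace_smul, Complex.add_re, Complex.smul_re, smul_eq_mul]
  ring

/-- The block inequality for every joint state. -/
theorem lift_ge {ι : Type*} [Fintype ι] [DecidableEq ι] [Nonempty ι]
    (hγ0 : 0 ≤ γ) (hγ1 : γ ≤ 1) (hν0 : 0 ≤ ν) (hν1 : ν ≤ 1)
    {X : Matrix (ι ⊕ ι) (ι ⊕ ι) ℂ} (hX : X.PosSemidef) (htr : X.trace.re = 1)
    (hout : (lift γ ν X).PosSemidef) (hone : (lift γ ν (1 : Matrix (ι ⊕ ι) (ι ⊕ ι) ℂ)).PosSemidef) :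
    phi γ ν X.toBlocks₂₂.trace.re + ent X.toBlocks₁₁ + ent X.toBlocks₂₂
      - Real.negMulLog (1 - X.toBlocks₂₂.trace.re) - Real.negMulLog X.toBlocks₂₂.trace.re
      ≤ ent (lift γ ν X) := by
  set d : ℝ := (Fintype.card ι : ℝ) with hd
  have hd0 : 0 ≤ d := Nat.cast_nonneg _
  set p := X.toBlocks₂₂.trace.re with hp
  have hq : X.toBlocks₁₁.trace.re = 1 - p := by
    have : X.trace.re = X.toBlocks₁₁.trace.re + X.toBlocks₂₂.trace.re := by
      simp [Matrix.trace, Fintype.sum_sum_type, toBlocks₁₁, toBlocks₂₂]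
    rw [hp]; linarith
  set k : ℝ → ℝ := fun ε => (1 + 2 * d * ε)⁻¹ with hk
  set L : ℝ → ℝ := fun ε =>
    phi γ ν (k ε * (p + ε * d))
      + (k ε * ent (X.toBlocks₁₁ + ε • (1 : Matrix ι ι ℂ))
          + (1 - p + ε * d) * Real.negMulLog (k ε))
      + (k ε * ent (X.toBlocks₂₂ + ε • (1 : Matrix ι ι ℂ))
          + (p + ε * d) * Real.negMulLog (k ε))
      - Real.negMulLog (1 - k ε * (p + ε * d)) - Real.negMulLog (k ε * (p + ε * d)) with hL
  set R : ℝ → ℝ := fun ε =>
    k ε * ent (lift γ ν X + ε • lift γ ν (1 : Matrix (ι ⊕ ι) (ι ⊕ ι) ℂ))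
      + (1 + 2 * d * ε) * Real.negMulLog (k ε) with hR
  have b11 : (X.toBlocks₁₁).PosSemidef := hX.submatrix Sum.inl
  have b22 : (X.toBlocks₂₂).PosSemidef := hX.submatrix Sum.inr
  have key : ∀ ε : ℝ, 0 < ε → L ε ≤ R ε := by
    intro ε hε
    have hk0 : 0 < k ε := by simp only [hk]; positivity
    set Xe := k ε • (X + ε • (1 : Matrix (ι ⊕ ι) (ι ⊕ ι) ℂ)) with hXe
    have hpd : Xe.PosDef := (PosDef.posSemidef_add hX (PosDef.one.smul hε)).smul hk0
    have hte : Xe.trace.re = 1 := by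
      have hne : (1 + 2 * d * ε) ≠ 0 := by positivity
      rw [hXe, Matrix.trace_smul, Complex.smul_re, Matrix.trace_add, Matrix.trace_smul,
        Matrix.trace_one, Complex.add_re, Complex.smul_re, htr, Fintype.card_sum]
      simp only [hk, Nat.cast_add, Complex.add_re, Complex.natCast_re, smul_eq_mul, ← hd]
      field_simp
      ring
    have h := lift_ge_posDef hγ0 hγ1 hν0 hν1 hpd hte
    have e1 : Xe.toBlocks₁₁ = k ε • (X.toBlocks₁₁ + ε • (1 : Matrix ι ι ℂ)) := by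
      ext i j; simp [hXe, toBlocks₁₁, Matrix.one_apply]
    have e2 : Xe.toBlocks₂₂ = k ε • (X.toBlocks₂₂ + ε • (1 : Matrix ι ι ℂ)) := by
      ext i j; simp [hXe, toBlocks₂₂, Matrix.one_apply]
    have e3 : lift γ ν Xe
        = k ε • (lift γ ν X + ε • lift γ ν (1 : Matrix (ι ⊕ ι) (ι ⊕ ι) ℂ)) := by
      ext i j
      rcases i with i | i <;> rcases j with j | j <;>
        simp [hXe, lift, toBlocks₁₁, toBlocks₂₂, toBlocks₁₂, toBlocks₂₁] <;> ring
    have hs : (lift γ ν X + ε • lift γ ν (1 : Matrix (ι ⊕ ι) (ι ⊕ ι) ℂ)).IsHermitian :=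
      (hout.add (hone.smul hε.le)).1
    have t3 : (lift γ ν X + ε • lift γ ν (1 : Matrix (ι ⊕ ι) (ι ⊕ ι) ℂ)).trace.re
        = 1 + 2 * d * ε := by
      rw [Matrix.trace_add, Matrix.trace_smul, Complex.add_re, Complex.smul_re, trace_lift,
        trace_lift, htr, Matrix.trace_one, Fintype.card_sum]
      simp only [Nat.cast_add, Complex.add_re, Complex.natCast_re, smul_eq_mul, ← hd]
      ring
    rw [e1, e2, e3, ent_smul (b11.add (PosSemidef.one.smul hε.le)).1,
      ent_smul (b22.add (PosSemidef.one.smul hε.le)).1, ent_smul hs, t3] at h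
    simp only [Matrix.trace_add, Matrix.trace_smul, Matrix.trace_one, Complex.add_re,
      Complex.smul_re, Complex.natCast_re, smul_eq_mul, hq, ← hp, ← hd] at h
    simp only [hL, hR]
    linarith
  have hk1 : Tendsto k (𝓝[>] 0) (𝓝 1) := by
    have : ContinuousAt k 0 := ContinuousAt.inv₀ (by fun_prop) (by norm_num)
    simpa [hk] using this.tendsto.mono_left nhdsWithin_le_nhds
  have hid : Tendsto (fun ε : ℝ => ε) (𝓝[>] 0) (𝓝 0) := nhdsWithin_le_nhds
  have hp1 : Tendsto (fun ε => k ε * (p + ε * d)) (𝓝[>] 0) (𝓝 p) := by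
    simpa using hk1.mul ((hid.mul_const d).const_add p)
  have hn : Tendsto (fun ε => Real.negMulLog (k ε)) (𝓝[>] 0) (𝓝 0) := by
    simpa [Function.comp_def] using (Real.continuous_negMulLog.tendsto 1).comp hk1
  have hl : Tendsto L (𝓝[>] 0) (𝓝 (phi γ ν p + ent X.toBlocks₁₁ + ent X.toBlocks₂₂
      - Real.negMulLog (1 - p) - Real.negMulLog p)) := by
    have t1 := ((continuous_phi γ ν).tendsto p).comp hp1
    have t2 := (hk1.mul (tendsto_ent b11 PosSemidef.one)).add
      (((hid.mul_const d).const_add (1 - p)).mul hn)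
    have t3 := (hk1.mul (tendsto_ent b22 PosSemidef.one)).add
      (((hid.mul_const d).const_add p).mul hn)
    have t4 := (Real.continuous_negMulLog.tendsto (1 - p)).comp (hp1.const_sub 1)
    have t5 := (Real.continuous_negMulLog.tendsto p).comp hp1
    simpa [hL] using (((t1.add t2).add t3).sub t4).sub t5
  have hr : Tendsto R (𝓝[>] 0) (𝓝 (ent (lift γ ν X))) := by
    simpa [hR] using (hk1.mul (tendsto_ent hout hone)).add
      (((hid.const_mul (2 * d)).const_add 1).mul hn)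
  exact le_of_tendsto_of_tendsto hl hr (eventually_nhdsWithin_of_forall key)

theorem lift_one_posSemidef {ι : Type*} [Fintype ι] [DecidableEq ι]
    (hγ0 : 0 ≤ γ) (hγ1 : γ ≤ 1) (hν0 : 0 ≤ ν) (hν1 : ν ≤ 1) :
    (lift γ ν (1 : Matrix (ι ⊕ ι) (ι ⊕ ι) ℂ)).PosSemidef := by
  have e : lift γ ν (1 : Matrix (ι ⊕ ι) (ι ⊕ ι) ℂ) = diagonal (Sum.elim
      (fun _ => (((1 - γ * ν) + γ * (1 - ν) : ℝ) : ℂ))
      (fun _ => ((γ * ν + (1 - γ + γ * ν) : ℝ) : ℂ))) := by
    ext i j
    rcases i with i | i <;> rcases j with j | j <;>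
      simp [lift, toBlocks₁₁, toBlocks₁₂, toBlocks₂₁, toBlocks₂₂, diagonal_apply, Matrix.one_apply]
      <;> split_ifs <;> simp
  rw [e]
  refine posSemidef_diagonal_iff.2 fun k => ?_
  rcases k with k | k <;> refine Complex.zero_le_real.2 ?_
  · nlinarith [mul_le_one₀ hγ1 hν0 hν1, mul_nonneg hγ0 (sub_nonneg.2 hν1)]
  · nlinarith [mul_nonneg hγ0 hν0]

/-- The main recursion: block inputs cannot beat the convex single-letter bound. -/
theorem ent_gadPow_ge (hγ0 : 0 ≤ γ) (hγ1 : γ ≤ 1) (hν0 : 0 ≤ ν) (hν1 : ν ≤ 1) {f : ℝ → ℝ}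
    (hf : ConvexOn ℝ (Set.Icc (0 : ℝ) 1) f) (hle : ∀ p ∈ Set.Icc (0 : ℝ) 1, f p ≤ phi γ ν p) :
    ∀ (n : ℕ) (ρ : Matrix (Fin n → Fin 2) (Fin n → Fin 2) ℂ), ρ.PosSemidef → ρ.trace.re = 1 →
      ∑ i, f (pop i ρ) ≤ ent (gadPow γ ν n ρ) := by
  intro n
  induction n with
  | zero =>
    intro ρ h ht
    simpa using ent_nonneg (gadPow_posSemidef 0 h)
      (by rw [trace_gadPow hγ0 hγ1 hν0 hν1, ht])
  | succ n ih =>
    intro ρ h ht
    have hXp : (spect γ ν n ρ).PosSemidef := spect_posSemidef n h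
    have hout : (lift γ ν (spect γ ν n ρ)).PosSemidef := by
      rw [← gadPow_succ hγ0 hγ1 hν0 hν1]
      exact (gadPow_posSemidef _ h).submatrix _
    set R00 := (ρ.submatrix (cut n) (cut n)).toBlocks₁₁ with hR00
    set R11 := (ρ.submatrix (cut n) (cut n)).toBlocks₂₂ with hR11
    have h00 : R00.PosSemidef := (h.submatrix (cut n)).submatrix Sum.inl
    have h11 : R11.PosSemidef := (h.submatrix (cut n)).submatrix Sum.inr
    set p := R11.trace.re with hp
    have hq : R00.trace.re = 1 - p := by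
      rw [trace_cut, Complex.add_re] at ht
      linarith
    have hp0 : 0 ≤ p := (Complex.le_def.1 h11.trace_nonneg).1
    have hq0 : 0 ≤ 1 - p := hq ▸ (Complex.le_def.1 h00.trace_nonneg).1
    have hX1 : (spect γ ν n ρ).trace.re = 1 := by
      rw [spect_eq]
      simp [Matrix.trace, Fintype.sum_sum_type]
      rw [← Complex.re_sum, ← Complex.re_sum]
      have e1 := trace_gadPow hγ0 hγ1 hν0 hν1 n R00
      have e2 := trace_gadPow hγ0 hγ1 hν0 hν1 n R11
      simp only [Matrix.trace, Matrix.diag_apply] at e1 e2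
      rw [← hR00, ← hR11, e1, e2]
      have := hq; have := hp
      simp only [Matrix.trace, Matrix.diag_apply] at this hq ⊢
      linarith
    have hL := lift_ge hγ0 hγ1 hν0 hν1 hXp hX1 hout (lift_one_posSemidef hγ0 hγ1 hν0 hν1)
    rw [← gadPow_succ hγ0 hγ1 hν0 hν1, ent_submatrix, spect_eq, toBlocks_fromBlocks₁₁,
      toBlocks_fromBlocks₂₂, trace_gadPow hγ0 hγ1 hν0 hν1, ← hR00, ← hR11, ← hp] at hL
    have part : ∀ (M : Matrix (Fin n → Fin 2) (Fin n → Fin 2) ℂ) (r : ℝ), M.PosSemidef →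
        M.trace.re = r → 0 < r →
        r * ∑ i, f (r⁻¹ * pop i M) ≤ ent (gadPow γ ν n M) - Real.negMulLog r := by
      intro M r hM hr hr0
      have := mul_le_mul_of_nonneg_left
        (ih (r⁻¹ • M) (hM.smul (inv_nonneg.2 hr0.le)) (by simp [hr, hr0.ne'])) hr0.le
      simp only [pop_smul, gadPow_smul] at this
      have hs := ent_smul ((gadPow_isHermitian n hM).smul
        (IsSelfAdjoint.all (r⁻¹ : ℝ))) r (M := r⁻¹ • gadPow γ ν n M)
      rw [smul_smul, mul_inv_cancel₀ hr0.ne', one_smul, Matrix.trace_smul, Complex.smul_re,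
        trace_gadPow hγ0 hγ1 hν0 hν1, hr, smul_eq_mul, inv_mul_cancel₀ hr0.ne', one_mul] at hs
      linarith
    rw [Fin.sum_univ_succ, pop_zero, ← hR11, ← hp]
    refine le_trans ?_ hL
    have hsum : ∀ i, pop i.succ ρ = pop i R00 + pop i R11 := fun i => pop_succ i ρ
    simp only [hsum]
    have hfp := hle p ⟨hp0, by linarith⟩
    suffices ∑ i, f (pop i R00 + pop i R11)
        ≤ (ent (gadPow γ ν n R00) - Real.negMulLog (1 - p))
          + (ent (gadPow γ ν n R11) - Real.negMulLog p) by linarith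
    have zero : ∀ (M : Matrix (Fin n → Fin 2) (Fin n → Fin 2) ℂ), M.PosSemidef →
        M.trace.re = 0 → M = 0 := fun M hM h0 =>
      hM.trace_eq_zero_iff.1 (Complex.ext h0 ((Complex.le_def.1 hM.trace_nonneg).2.symm))
    rcases eq_or_lt_of_le hp0 with hp' | hp'
    · have z := zero R11 h11 hp'.symm
      have := part R00 1 h00 (by rw [hq]; linarith) one_pos
      simp only [← hp', sub_zero, Real.negMulLog_one, Real.negMulLog_zero, z, inv_one, one_mul] at *
      simpa [pop, gadPow, ent_zero] using this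
    rcases eq_or_lt_of_le hq0 with hq' | hq'
    · have z := zero R00 h00 (hq.trans hq'.symm)
      have := part R11 1 h11 (by linarith) one_pos
      have hp1 : p = 1 := by linarith
      simp only [hp1, sub_self, Real.negMulLog_one, Real.negMulLog_zero, z, inv_one, one_mul] at *
      simpa [pop, gadPow, ent_zero] using this
    have a := part R00 (1 - p) h00 hq hq'
    have b := part R11 p h11 rfl hp'
    refine le_trans ?_ (add_le_add a b)
    rw [Finset.mul_sum, Finset.mul_sum, ← Finset.sum_add_distrib]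
    refine Finset.sum_le_sum fun i _ => ?_
    have m0 := pop_mem i (h00.smul (inv_nonneg.2 hq'.le)) (by rw [Matrix.trace_smul, Complex.smul_re, hq, smul_eq_mul, inv_mul_cancel₀ hq'.ne'])
    have m1 := pop_mem i (h11.smul (inv_nonneg.2 hp'.le)) (by rw [Matrix.trace_smul, Complex.smul_re, ← hp, smul_eq_mul, inv_mul_cancel₀ hp'.ne'])
    rw [pop_smul] at m0 m1
    have := hf.2 m0 m1 hq0 hp0 (by ring)
    simpa [mul_inv_cancel_left₀ hq'.ne', mul_inv_cancel_left₀ hp'.ne'] using this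

/-- Entropy is at most the sum of the entropies of the diagonal marginals. -/
theorem ent_le_marginals {n : ℕ} {Y : Matrix (Fin n → Fin 2) (Fin n → Fin 2) ℂ}
    (hY : Y.PosSemidef) (ht : Y.trace.re = 1) :
    ent Y ≤ ∑ i, (Real.negMulLog (1 - pop i Y) + Real.negMulLog (pop i Y)) := by
  set m : Fin n → Fin 2 → ℝ := fun i => ![1 - pop i Y, pop i Y] with hm
  have hmem := fun i => pop_mem i hY ht
  have m0 : ∀ i b, 0 ≤ m i b := fun i b => by
    fin_cases b <;> simp [hm, (hmem i).1, (hmem i).2]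
  have h0 : ∀ x, 0 ≤ (Y x x).re := fun x => (Complex.le_def.1 hY.diag_nonneg).1
  have hmarg : ∀ i b, ∑ x, (if x i = b then (Y x x).re else 0) = m i b := by
    intro i b
    fin_cases b
    · have : ∑ x, (if x i = 0 then (Y x x).re else 0) + pop i Y = Y.trace.re := by
        rw [pop, ← Finset.sum_add_distrib, Matrix.trace, Complex.re_sum]
        refine Finset.sum_congr rfl fun x _ => ?_
        rcases Fin.exists_fin_two.1 ⟨x i, rfl⟩ with h | h <;> simp [h]
      simp [hm]; linarith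
    · simp [hm, pop]
  have hsupp : ∀ x i, m i (x i) = 0 → (Y x x).re = 0 := by
    intro x i h
    rw [← hmarg, Finset.sum_eq_zero_iff_of_nonneg fun y _ => by split_ifs <;> simp [h0 y]] at h
    simpa using h x (Finset.mem_univ x)
  have hk := klein hY (U := 1) (by simp) (by simp) (d := fun x => ∏ i, m i (x i))
    (fun x => Finset.prod_nonneg fun i _ => m0 i (x i)) (fun x hx => by
      obtain ⟨i, -, hi⟩ := Finset.prod_eq_zero_iff.1 hx
      simpa using hsupp x i hi)
  have hprod : ∑ x : Fin n → Fin 2, ∏ i, m i (x i) = 1 := by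
    rw [← Fintype.prod_sum]
    simp [hm, Fin.sum_univ_two]
  have hlog : trLog Y 1 (fun x => ∏ i, m i (x i))
      = -∑ i, (Real.negMulLog (1 - pop i Y) + Real.negMulLog (pop i Y)) := by
    have e : ∀ x, (Y x x).re * Real.log (∏ i, m i (x i))
        = ∑ i, ∑ b, (if x i = b then (Y x x).re else 0) * Real.log (m i b) := by
      intro x
      by_cases hz : (Y x x).re = 0
      · simp [hz]
      rw [Real.log_prod fun i _ h => hz (hsupp x i h), Finset.mul_sum]
      exact Finset.sum_congr rfl fun i _ => by simp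
    simp only [trLog, conjTranspose_one, Matrix.one_mul, Matrix.mul_one, e]
    rw [Finset.sum_comm, ← Finset.sum_neg_distrib]
    refine Finset.sum_congr rfl fun i _ => ?_
    rw [Finset.sum_comm]
    simp only [← Finset.sum_mul, hmarg, Fin.sum_univ_two]
    simp [hm, Real.negMulLog]
    ring
  rw [hlog, hprod, ht] at hk
  linarith

theorem tensor_mul {n : ℕ} (A B : Fin n → Matrix (Fin 2) (Fin 2) ℂ) :
    tensor A * tensor B = tensor fun i => A i * B i := by
  ext x y
  simp only [tensor, Matrix.mul_apply, of_apply, Fintype.prod_sum, ← Finset.prod_mul_distrib]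

theorem tensor_conjTranspose {n : ℕ} (A : Fin n → Matrix (Fin 2) (Fin 2) ℂ) :
    (tensor A)ᴴ = tensor fun i => (A i)ᴴ := by
  ext x y
  simp [tensor]

theorem tensor_diagonal {n : ℕ} (d : Fin n → Fin 2 → ℂ) :
    tensor (fun i => diagonal (d i)) = diagonal fun x => ∏ i, d i (x i) := by
  ext x y
  by_cases h : x = y
  · subst h; simp [tensor]
  · obtain ⟨i, hi⟩ := Function.ne_iff.1 h
    simp only [tensor, of_apply, diagonal_apply_ne _ h]
    exact Finset.prod_eq_zero (Finset.mem_univ i) (diagonal_apply_ne _ hi)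

theorem tensor_one {n : ℕ} : tensor (fun _ : Fin n => (1 : Matrix (Fin 2) (Fin 2) ℂ)) = 1 := by
  have := tensor_diagonal (n := n) fun _ _ => (1 : ℂ)
  simpa using this

theorem gadPow_tensor (hγ0 : 0 ≤ γ) (hγ1 : γ ≤ 1) (hν0 : 0 ≤ ν) (hν1 : ν ≤ 1) {n : ℕ}
    (ρ : Fin n → Matrix (Fin 2) (Fin 2) ℂ) :
    gadPow γ ν n (tensor ρ) = tensor fun i => gad γ ν (ρ i) := by
  ext x y
  simp only [gadPow, tensor_conjTranspose, tensor_mul, ← gadKraus_table hγ0 hγ1 hν0 hν1]
  simp [tensor, Matrix.sum_apply, Fintype.prod_sum]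

theorem tensor_posSemidef {n : ℕ} {ρ : Fin n → Matrix (Fin 2) (Fin 2) ℂ}
    (h : ∀ i, (ρ i).PosSemidef) : (tensor ρ).PosSemidef := by
  choose U d hd using fun i => (⟨_, _, exists_diag (h i).1⟩ :
    ∃ U d, Diag (ρ i) U d)
  have e : tensor ρ = tensor U * diagonal (fun x => ∏ i, (d i (x i) : ℂ)) * (tensor U)ᴴ := by
    rw [← tensor_diagonal (fun i b => (d i b : ℂ)), tensor_conjTranspose, tensor_mul, tensor_mul]
    congr 1
    funext i
    exact (hd i).eq
  rw [e]
  refine (posSemidef_diagonal_iff.2 fun x => ?_).mul_mul_conjTranspose_same _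
  refine Finset.prod_nonneg fun i _ => ?_
  exact Complex.zero_le_real.2 ((hd i).nonneg (h i) (x i))

theorem tensor_trace {n : ℕ} (ρ : Fin n → Matrix (Fin 2) (Fin 2) ℂ) :
    (tensor ρ).trace = ∏ i, (ρ i).trace := by
  simp only [tensor, Matrix.trace, Matrix.diag_apply, of_apply, Fintype.prod_sum]

theorem ent_tensor {n : ℕ} {ρ : Fin n → Matrix (Fin 2) (Fin 2) ℂ}
    (h : ∀ i, (ρ i).IsHermitian) (ht : ∀ i, (ρ i).trace.re = 1) :
    ent (tensor ρ) = ∑ i, ent (ρ i) := by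
  choose U d hd using fun i => (⟨_, _, exists_diag (h i)⟩ : ∃ U d, Diag (ρ i) U d)
  have hD : Diag (tensor ρ) (tensor U) (fun x => ∏ i, d i (x i)) := by
    refine ⟨?_, ?_, ?_⟩
    · simp [tensor_conjTranspose, tensor_mul, fun i => (hd i).left, tensor_one]
    · simp [tensor_conjTranspose, tensor_mul, fun i => (hd i).right, tensor_one]
    · push_cast
      rw [← tensor_diagonal (fun i b => (d i b : ℂ)), tensor_conjTranspose, tensor_mul, tensor_mul]
      congr 1
      funext i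
      exact (hd i).eq
  rw [hD.ent_eq]
  have hsum : ∀ i, ∑ b, d i b = 1 := fun i => by rw [← (hd i).trace_eq, ht]
  simp only [fun i => (hd i).ent_eq]
  clear hD hd U
  induction n with
  | zero => simp
  | succ n ih =>
    rw [← (Fin.consEquiv fun _ => Fin 2).sum_comp, Fintype.sum_prod_type, Fin.sum_univ_succ (n := n)]
    simp only [Fin.consEquiv_apply, Fin.prod_univ_succ, Fin.cons_zero, Fin.cons_succ,
      Real.negMulLog_mul]
    rw [← ih (ρ := fun i => ρ i.succ) (fun i => h i.succ) (fun i => ht i.succ)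
      (fun i => d i.succ) (fun i => hsum i.succ)]
    simp only [Finset.sum_add_distrib, ← Finset.mul_sum, ← Finset.sum_mul,
      ← Fintype.prod_sum (fun (i : Fin n) b => d i.succ b), hsum, Finset.prod_const_one, one_mul]

end Vale.Agent.P358
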