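import Mathlib
import Vale.Agent.P358.Tensor

/-!
Additivity of the Holevo quantity.
-/

noncomputable section

open Matrix Finset Filter Topology
open scoped ComplexOrder

namespace Vale.Agent.P358

theorem entropy_eq {ι : Type*} [Fintype ι] [DecidableEq ι] (M : Matrix ι ι ℂ) :
    entropy M = ent M / Real.log 2 := by
  unfold entropy ent
  rw [div_eq_mul_inv, ← Multiset.sum_map_mul_right]
  refine congrArg Multiset.sum (Multiset.map_congr rfl fun z _ => ?_)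
  rw [Real.negMulLog, Real.logb]
  ring

theorem holevo_value {ι κ : Type*} [Fintype ι] [Fintype κ] [DecidableEq κ]
    (Φ : Matrix ι ι ℂ → Matrix κ κ ℂ) {m : ℕ} (q : Fin m → ℝ) (ρ : Fin m → Matrix ι ι ℂ) :
    entropy (∑ a, q a • Φ (ρ a)) - ∑ a, q a * entropy (Φ (ρ a))
      = (ent (∑ a, q a • Φ (ρ a)) - ∑ a, q a * ent (Φ (ρ a))) / Real.log 2 := by
  simp only [entropy_eq, sub_div, Finset.sum_div, mul_div_assoc]

variable {γ ν : ℝ}

theorem gad_posSemidef (hγ0 : 0 ≤ γ) (hγ1 : γ ≤ 1) (hν0 : 0 ≤ ν) (hν1 : ν ≤ 1)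
    {ρ : Matrix (Fin 2) (Fin 2) ℂ} (h : ρ.PosSemidef) : (gad γ ν ρ).PosSemidef := by
  rw [← gadKraus_table hγ0 hγ1 hν0 hν1]
  exact posSemidef_sum _ fun _ _ => h.mul_mul_conjTranspose_same _

theorem gad_trace (ρ : Matrix (Fin 2) (Fin 2) ℂ) : (gad γ ν ρ).trace = ρ.trace := by
  simp [gad, Matrix.trace_fin_two]

theorem gad_add (ρ σ : Matrix (Fin 2) (Fin 2) ℂ) :
    gad γ ν (ρ + σ) = gad γ ν ρ + gad γ ν σ := by
  ext i j
  fin_cases i <;> fin_cases j <;> simp [gad] <;> ring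

theorem gad_smul (c : ℝ) (ρ : Matrix (Fin 2) (Fin 2) ℂ) : gad γ ν (c • ρ) = c • gad γ ν ρ := by
  ext i j
  fin_cases i <;> fin_cases j <;> simp [gad] <;> ring

/-- An input state with a chosen sign of the coherence. -/
def psiSign (s p : ℝ) : Matrix (Fin 2) (Fin 2) ℂ :=
  !![((1 - p : ℝ) : ℂ), ((s * Real.sqrt (p * (1 - p)) : ℝ) : ℂ);
    ((s * Real.sqrt (p * (1 - p)) : ℝ) : ℂ), (p : ℂ)]

theorem psiSign_state {s p : ℝ} (hs : s * s = 1) (hp : p ∈ Set.Icc (0 : ℝ) 1) :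
    IsState (psiSign s p) := by
  refine ⟨?_, by simp [psiSign, Matrix.trace_fin_two]⟩
  set v : Fin 2 → ℂ := ![(Real.sqrt (1 - p) : ℂ), ((s * Real.sqrt p : ℝ) : ℂ)] with hv
  have a : Real.sqrt (1 - p) * Real.sqrt (1 - p) = 1 - p :=
    Real.mul_self_sqrt (sub_nonneg.2 hp.2)
  have b : Real.sqrt p * Real.sqrt p = p := Real.mul_self_sqrt hp.1
  have e : psiSign s p = vecMulVec v (star v) := by
    ext i j
    fin_cases i <;> fin_cases j <;>
      simp [psiSign, hv, vecMulVec_apply, Complex.ext_iff, Real.sqrt_mul hp.1]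
    · linarith
    · ring
    · ring
    · linear_combination (-(Real.sqrt p * Real.sqrt p)) * hs - b
  rw [e]
  exact posSemidef_vecMulVec_self_star v

theorem ent_gad_psiSign (hγ0 : 0 ≤ γ) (hγ1 : γ ≤ 1) (hν0 : 0 ≤ ν) (hν1 : ν ≤ 1) {s p : ℝ}
    (hs : s * s = 1) (hp : p ∈ Set.Icc (0 : ℝ) 1) : ent (gad γ ν (psiSign s p)) = phi γ ν p := by
  rw [phi, ent_fin_two (gad_posSemidef hγ0 hγ1 hν0 hν1 (psiSign_state hs hp).1).1,
    ent_fin_two (gad_psi_isHermitian γ ν p)]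
  have e1 : (gad γ ν (psiSign s p)).trace.re = (gad γ ν (psi p)).trace.re := by
    rw [gad_trace, gad_trace]
    simp [psiSign, psi, Matrix.trace_fin_two]
  have hs' : (s : ℂ) * s = 1 := by exact_mod_cast hs
  have e2 : (gad γ ν (psiSign s p)).det = (gad γ ν (psi p)).det := by
    simp [gad, psiSign, psi, Matrix.det_fin_two]
    linear_combination ((Real.sqrt (1 - γ) : ℂ) * (Real.sqrt (1 - γ) : ℂ)
      * ((Real.sqrt (p * (1 - p)) : ℂ) * (Real.sqrt (p * (1 - p)) : ℂ))) * hs'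
  rw [e1, e2]

theorem phi_nonneg (hγ0 : 0 ≤ γ) (hγ1 : γ ≤ 1) (hν0 : 0 ≤ ν) (hν1 : ν ≤ 1) {p : ℝ}
    (hp : p ∈ Set.Icc (0 : ℝ) 1) : 0 ≤ phi γ ν p := by
  rw [← ent_gad_psiSign hγ0 hγ1 hν0 hν1 (one_mul 1) hp]
  refine ent_nonneg (gad_posSemidef hγ0 hγ1 hν0 hν1 (psiSign_state (one_mul 1) hp).1) ?_
  rw [gad_trace, (psiSign_state (one_mul 1) hp).2]
  simp

/-- Binary entropy in nats. -/
def h2 (t : ℝ) : ℝ := Real.negMulLog (1 - t) + Real.negMulLog t

theorem tensor_eval {n : ℕ} (A : Matrix (Fin n → Fin 2) (Fin n → Fin 2) ℂ) :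
    A.trace.re = ∑ x, (A x x).re := by
  simp [Matrix.trace]

theorem nonempty_values (Φ : Matrix (Fin 2) (Fin 2) ℂ → Matrix (Fin 2) (Fin 2) ℂ) :
    (holevoValues Φ).Nonempty :=
  ⟨_, 1, fun _ => 1, fun _ => psiSign 1 0, fun _ => zero_le_one, by simp,
    fun _ => psiSign_state (one_mul 1) ⟨le_rfl, zero_le_one⟩, rfl⟩

theorem bddAbove_gad (hγ0 : 0 ≤ γ) (hγ1 : γ ≤ 1) (hν0 : 0 ≤ ν) (hν1 : ν ≤ 1) :
    BddAbove (holevoValues (gad γ ν)) := by
  refine ⟨(2 * 1 : ℝ) / Real.log 2, ?_⟩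
  rintro r ⟨m, q, ρ, hq, hsum, hst, rfl⟩
  rw [holevo_value]
  refine div_le_div_of_nonneg_right ?_ (Real.log_nonneg one_le_two)
  set Y := ∑ a, q a • gad γ ν (ρ a) with hY
  have hpsd : Y.PosSemidef :=
    posSemidef_sum _ fun a _ => (gad_posSemidef hγ0 hγ1 hν0 hν1 (hst a).1).smul (hq a)
  have h0 : 0 ≤ ∑ a, q a * ent (gad γ ν (ρ a)) := Finset.sum_nonneg fun a _ =>
    mul_nonneg (hq a) (ent_nonneg (gad_posSemidef hγ0 hγ1 hν0 hν1 (hst a).1)
      (by rw [gad_trace, (hst a).2]; simp))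
  have hd := exists_diag hpsd.1
  have hb : ent Y ≤ 2 := by
    rw [hd.ent_eq, Fin.sum_univ_two]
    have hn : ∀ x : ℝ, 0 ≤ x → Real.negMulLog x ≤ 1 := by
      intro x hx
      rcases eq_or_lt_of_le hx with h | h
      · simp [← h]
      · have := mul_le_mul_of_nonneg_left (Real.one_sub_inv_le_log_of_pos h) hx
        rw [mul_sub, mul_one, mul_inv_cancel₀ h.ne'] at this
        rw [Real.negMulLog]
        linarith
    linarith [hn _ (hpsd.eigenvalues_nonneg 0), hn _ (hpsd.eigenvalues_nonneg 1)]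
  linarith

theorem values_le (hγ0 : 0 ≤ γ) (hγ1 : γ ≤ 1) (hν0 : 0 ≤ ν) (hν1 : ν ≤ 1) {m : ℕ}
    (q : Fin m → ℝ) (ρ : Fin m → Matrix (Fin 2) (Fin 2) ℂ) (hq : ∀ a, 0 ≤ q a)
    (hsum : ∑ a, q a = 1) (hst : ∀ a, IsState (ρ a)) :
    ent (∑ a, q a • gad γ ν (ρ a)) - ∑ a, q a * ent (gad γ ν (ρ a))
      ≤ chi (gad γ ν) * Real.log 2 := by
  have h : _ ≤ chi (gad γ ν) :=
    le_csSup (bddAbove_gad hγ0 hγ1 hν0 hν1) ⟨m, q, ρ, hq, hsum, hst, rfl⟩
  rw [holevo_value, div_le_iff₀ (Real.log_pos one_lt_two)] at h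
  exact h

/-- Averages of `phi` over distributions of mean `p`. -/
def mixSet (γ ν p : ℝ) : Set ℝ :=
  {v | ∃ (m : ℕ) (w P : Fin m → ℝ), (∀ a, 0 ≤ w a) ∧ ∑ a, w a = 1 ∧
    (∀ a, P a ∈ Set.Icc (0 : ℝ) 1) ∧ ∑ a, w a * P a = p ∧ v = ∑ a, w a * phi γ ν (P a)}

/-- The convex envelope of `phi`. -/
def env (γ ν p : ℝ) : ℝ := sInf (mixSet γ ν p)

theorem mixSet_nonempty {p : ℝ} (hp : p ∈ Set.Icc (0 : ℝ) 1) : (mixSet γ ν p).Nonempty :=
  ⟨_, 1, fun _ => 1, fun _ => p, fun _ => zero_le_one, by simp, fun _ => hp, by simp, rfl⟩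

theorem mixSet_bddBelow (hγ0 : 0 ≤ γ) (hγ1 : γ ≤ 1) (hν0 : 0 ≤ ν) (hν1 : ν ≤ 1) (p : ℝ) :
    BddBelow (mixSet γ ν p) := by
  refine ⟨0, ?_⟩
  rintro v ⟨m, w, P, hw, -, hP, -, rfl⟩
  exact Finset.sum_nonneg fun a _ => mul_nonneg (hw a) (phi_nonneg hγ0 hγ1 hν0 hν1 (hP a))

theorem env_le_phi (hγ0 : 0 ≤ γ) (hγ1 : γ ≤ 1) (hν0 : 0 ≤ ν) (hν1 : ν ≤ 1) {p : ℝ}
    (hp : p ∈ Set.Icc (0 : ℝ) 1) : env γ ν p ≤ phi γ ν p :=
  csInf_le (mixSet_bddBelow hγ0 hγ1 hν0 hν1 p)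
    ⟨1, fun _ => 1, fun _ => p, fun _ => zero_le_one, by simp, fun _ => hp, by simp, by simp⟩

theorem convexOn_env (hγ0 : 0 ≤ γ) (hγ1 : γ ≤ 1) (hν0 : 0 ≤ ν) (hν1 : ν ≤ 1) :
    ConvexOn ℝ (Set.Icc (0 : ℝ) 1) (env γ ν) := by
  refine ⟨convex_Icc 0 1, ?_⟩
  intro x hx y hy a b ha hb hab
  simp only [smul_eq_mul]
  have main : ∀ u ∈ mixSet γ ν x, ∀ v ∈ mixSet γ ν y,
      env γ ν (a * x + b * y) ≤ a * u + b * v := by
    rintro u ⟨m, w, P, hw, hw1, hP, hPx, rfl⟩ v ⟨m', w', P', hw', hw1', hP', hPy, rfl⟩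
    refine csInf_le (mixSet_bddBelow hγ0 hγ1 hν0 hν1 _)
      ⟨m + m', Fin.addCases (fun i => a * w i) (fun j => b * w' j), Fin.addCases P P', ?_, ?_,
        ?_, ?_, ?_⟩
    · intro k
      refine Fin.addCases (fun i => ?_) (fun j => ?_) k
      · simp [mul_nonneg ha (hw i)]
      · simp [mul_nonneg hb (hw' j)]
    · simp [Fin.sum_univ_add, ← Finset.mul_sum, hw1, hw1', hab]
    · intro k
      refine Fin.addCases (fun i => ?_) (fun j => ?_) k
      · simpa using hP i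
      · simpa using hP' j
    · simp [Fin.sum_univ_add, mul_assoc, ← Finset.mul_sum, hPx, hPy]
    · simp [Fin.sum_univ_add, mul_assoc, ← Finset.mul_sum]
  refine le_of_forall_pos_le_add fun ε hε => ?_
  obtain ⟨u, hu, hu'⟩ := Real.lt_sInf_add_pos (mixSet_nonempty (γ := γ) (ν := ν) hx) hε
  obtain ⟨v, hv, hv'⟩ := Real.lt_sInf_add_pos (mixSet_nonempty (γ := γ) (ν := ν) hy) hε
  have h1 := mul_le_mul_of_nonneg_left hu'.le ha
  have h2' := mul_le_mul_of_nonneg_left hv'.le hb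
  have := main u hu v hv
  have e : a * ε + b * ε = ε := by rw [← add_mul, hab, one_mul]
  simp only [env] at *
  linarith

theorem h2_sub_env_le (hγ0 : 0 ≤ γ) (hγ1 : γ ≤ 1) (hν0 : 0 ≤ ν) (hν1 : ν ≤ 1) {p : ℝ}
    (hp : p ∈ Set.Icc (0 : ℝ) 1) :
    h2 ((1 - γ) * p + γ * ν) - env γ ν p ≤ chi (gad γ ν) * Real.log 2 := by
  suffices h2 ((1 - γ) * p + γ * ν) - chi (gad γ ν) * Real.log 2 ≤ env γ ν p by linarith
  refine le_csInf (mixSet_nonempty hp) ?_
  rintro v ⟨m, w, P, hw, hw1, hP, hPp, rfl⟩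
  set q : Fin (m + m) → ℝ := Fin.addCases (fun i => w i / 2) (fun i => w i / 2) with hq
  set ρ : Fin (m + m) → Matrix (Fin 2) (Fin 2) ℂ :=
    Fin.addCases (fun i => psiSign 1 (P i)) (fun i => psiSign (-1) (P i)) with hρ
  have h := values_le hγ0 hγ1 hν0 hν1 q ρ
    (fun k => by
      refine Fin.addCases (fun i => ?_) (fun i => ?_) k <;>
        simp only [hq, Fin.addCases_left, Fin.addCases_right] <;>
        exact div_nonneg (hw i) zero_le_two)
    (by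
      simp only [hq, Fin.sum_univ_add, Fin.addCases_left, Fin.addCases_right, ← Finset.sum_div, hw1]
      norm_num)
    (fun k => by
      refine Fin.addCases (fun i => ?_) (fun i => ?_) k
      · simp only [hρ, Fin.addCases_left]; exact psiSign_state (one_mul 1) (hP i)
      · simp only [hρ, Fin.addCases_right]
        exact psiSign_state (s := -1) (by norm_num) (hP i))
  have hval : ∀ i, ent (gad γ ν (psiSign 1 (P i))) = phi γ ν (P i) ∧
      ent (gad γ ν (psiSign (-1) (P i))) = phi γ ν (P i) := fun i =>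
    ⟨ent_gad_psiSign hγ0 hγ1 hν0 hν1 (one_mul 1) (hP i),
      ent_gad_psiSign hγ0 hγ1 hν0 hν1 (by norm_num) (hP i)⟩
  have hsum : ∑ k, q k • gad γ ν (ρ k)
      = diagonal fun b => ((![1 - ((1 - γ) * p + γ * ν), (1 - γ) * p + γ * ν] b : ℝ) : ℂ) := by
    simp only [hq, hρ, Fin.sum_univ_add, Fin.addCases_left, Fin.addCases_right,
      ← Finset.sum_add_distrib]
    have e : ∀ i, (w i / 2) • gad γ ν (psiSign 1 (P i))
        + (w i / 2) • gad γ ν (psiSign (-1) (P i))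
        = w i • diagonal (fun b =>
            ((![1 - ((1 - γ) * P i + γ * ν), (1 - γ) * P i + γ * ν] b : ℝ) : ℂ)) := by
      intro i
      ext j k
      fin_cases j <;> fin_cases k <;> simp [gad, psiSign] <;> ring
    simp only [e]
    ext j k
    rw [Matrix.sum_apply]
    fin_cases j <;> fin_cases k <;> simp
    · rw [← hPp, ← Complex.ofReal_one]
      push_cast
      simp only [Finset.sum_add_distrib, mul_sub, Finset.sum_sub_distrib, mul_add,
        Finset.mul_sum]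
      have h1' : ∑ i, (w i : ℂ) = 1 := by exact_mod_cast hw1
      simp only [← Finset.sum_mul, h1', mul_left_comm (1 - (γ : ℂ))]
      simp [mul_comm, mul_left_comm]
    · rw [← hPp]
      push_cast
      simp only [Finset.sum_add_distrib, mul_add, Finset.mul_sum]
      have h1' : ∑ i, (w i : ℂ) = 1 := by exact_mod_cast hw1
      simp only [← Finset.sum_mul, h1', mul_left_comm (1 - (γ : ℂ))]
      simp [mul_comm, mul_left_comm]
  rw [hsum, ent_diagonal, Fin.sum_univ_two] at h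
  simp only [cons_val_zero, cons_val_one, cons_val_fin_one] at h
  have hsum2 : ∑ k, q k * ent (gad γ ν (ρ k)) = ∑ i, w i * phi γ ν (P i) := by
    simp only [hq, hρ, Fin.sum_univ_add, Fin.addCases_left, Fin.addCases_right,
      ← Finset.sum_add_distrib, (hval _).1, (hval _).2]
    exact Finset.sum_congr rfl fun i _ => by ring
  rw [hsum2] at h
  rw [h2]
  linarith

theorem value_pow_le (hγ0 : 0 ≤ γ) (hγ1 : γ ≤ 1) (hν0 : 0 ≤ ν) (hν1 : ν ≤ 1) (n : ℕ) {r : ℝ}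
    (hr : r ∈ holevoValues (gadPow γ ν n)) : r ≤ n * chi (gad γ ν) := by
  obtain ⟨m, q, ρ, hq, hsum, hst, rfl⟩ := hr
  rw [holevo_value, div_le_iff₀ (Real.log_pos one_lt_two)]
  set R := ∑ a, q a • ρ a with hR
  have hRp : R.PosSemidef := posSemidef_sum _ fun a _ => (hst a).1.smul (hq a)
  have ht : ∀ a, (ρ a).trace.re = 1 := fun a => by rw [(hst a).2]; simp
  have hRt : R.trace.re = 1 := by
    simp [hR, Matrix.trace_sum, (hst _).2, hsum]
  have hout : ∑ a, q a • gadPow γ ν n (ρ a) = gadPow γ ν n R := by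
    simp only [hR, gadPow_sum, gadPow_smul]
  rw [hout]
  have hup := ent_le_marginals (gadPow_posSemidef (γ := γ) (ν := ν) n hRp)
    (by rw [trace_gadPow hγ0 hγ1 hν0 hν1, hRt])
  simp only [pop_gadPow hγ0 hγ1 hν0 hν1, hRt, mul_one] at hup
  have hpop : ∀ i, pop i R = ∑ a, q a * pop i (ρ a) := by
    intro i
    simp only [pop, hR, Finset.mul_sum, Matrix.sum_apply, Complex.re_sum, Matrix.smul_apply,
      Complex.smul_re, smul_eq_mul]
    rw [Finset.sum_comm]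
    exact Finset.sum_congr rfl fun x _ => by split_ifs <;> simp
  have hlo : ∑ i, env γ ν (pop i R) ≤ ∑ a, q a * ent (gadPow γ ν n (ρ a)) := by
    calc ∑ i, env γ ν (pop i R) ≤ ∑ i, ∑ a, q a * env γ ν (pop i (ρ a)) := by
          refine Finset.sum_le_sum fun i _ => ?_
          rw [hpop]
          exact (convexOn_env hγ0 hγ1 hν0 hν1).map_sum_le (fun a _ => hq a) hsum
            (fun a _ => pop_mem i (hst a).1 (ht a))
      _ = ∑ a, q a * ∑ i, env γ ν (pop i (ρ a)) := by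
          rw [Finset.sum_comm]; simp [Finset.mul_sum]
      _ ≤ _ := Finset.sum_le_sum fun a _ => mul_le_mul_of_nonneg_left
          (ent_gadPow_ge hγ0 hγ1 hν0 hν1 (convexOn_env hγ0 hγ1 hν0 hν1)
            (fun p hp => env_le_phi hγ0 hγ1 hν0 hν1 hp) n (ρ a) (hst a).1 (ht a)) (hq a)
  have hb : ∑ i : Fin n, (h2 ((1 - γ) * pop i R + γ * ν) - env γ ν (pop i R))
      ≤ (n : ℝ) * (chi (gad γ ν) * Real.log 2) := by
    refine (Finset.sum_le_sum fun i _ => h2_sub_env_le hγ0 hγ1 hν0 hν1 (pop_mem i hRp hRt)).trans ?_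
    simp
  simp only [Finset.sum_sub_distrib, h2] at hb
  linarith

theorem mul_mem_values (hγ0 : 0 ≤ γ) (hγ1 : γ ≤ 1) (hν0 : 0 ≤ ν) (hν1 : ν ≤ 1) (n : ℕ) {r : ℝ}
    (hr : r ∈ holevoValues (gad γ ν)) : (n : ℝ) * r ∈ holevoValues (gadPow γ ν n) := by
  obtain ⟨m, q, ρ, hq, hsum, hst, rfl⟩ := hr
  refine ⟨m ^ n, fun k => ∏ i, q (finFunctionFinEquiv.symm k i),
    fun k => tensor fun i => ρ (finFunctionFinEquiv.symm k i), fun k =>
      Finset.prod_nonneg fun i _ => hq _, ?_, fun k => ⟨tensor_posSemidef fun i => (hst _).1, ?_⟩, ?_⟩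
  · rw [Equiv.sum_comp finFunctionFinEquiv.symm (fun f => ∏ i, q (f i)), ← Fintype.prod_sum]
    simp [hsum]
  · simp [tensor_trace, (hst _).2]
  · rw [holevo_value, holevo_value, ← mul_div_assoc]
    congr 1
    have hg : ∀ a, (gad γ ν (ρ a)).IsHermitian :=
      fun a => (gad_posSemidef hγ0 hγ1 hν0 hν1 (hst a).1).1
    have hgt : ∀ a, (gad γ ν (ρ a)).trace.re = 1 := fun a => by
      rw [gad_trace, (hst a).2]; simp
    rw [Equiv.sum_comp finFunctionFinEquiv.symm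
        (fun f => (∏ i, q (f i)) • gadPow γ ν n (tensor fun i => ρ (f i))),
      Equiv.sum_comp finFunctionFinEquiv.symm
        (fun f => (∏ i, q (f i)) * ent (gadPow γ ν n (tensor fun i => ρ (f i))))]
    simp only [gadPow_tensor hγ0 hγ1 hν0 hν1]
    set S := ∑ a, q a • gad γ ν (ρ a) with hS
    have hSp : S.PosSemidef :=
      posSemidef_sum _ fun a _ => (gad_posSemidef hγ0 hγ1 hν0 hν1 (hst a).1).smul (hq a)
    have hSt : S.trace.re = 1 := by
      simp [hS, Matrix.trace_sum, gad_trace, (hst _).2, hsum]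
    have e1 : ∑ f : Fin n → Fin m, (∏ i, q (f i)) • tensor (fun i => gad γ ν (ρ (f i)))
        = tensor fun _ : Fin n => S := by
      ext x y
      simp [tensor, hS, Matrix.sum_apply, Fintype.prod_sum, Finset.prod_mul_distrib]
    rw [e1, ent_tensor (fun _ => hSp.1) (fun _ => hSt)]
    simp only [fun f : Fin n → Fin m =>
      ent_tensor (ρ := fun i => gad γ ν (ρ (f i))) (fun i => hg _) (fun i => hgt _)]
    have e2 : ∀ i : Fin n, ∑ f : Fin n → Fin m, (∏ j, q (f j)) * ent (gad γ ν (ρ (f i)))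
        = ∑ a, q a * ent (gad γ ν (ρ a)) := by
      intro i
      have e3 : ∀ f : Fin n → Fin m, (∏ j, q (f j)) * ent (gad γ ν (ρ (f i)))
          = ∏ j, q (f j) * (if j = i then ent (gad γ ν (ρ (f j))) else 1) := by
        intro f
        rw [Finset.prod_mul_distrib, Finset.prod_ite_eq' Finset.univ i]
        simp
      simp only [e3]
      rw [← Fintype.prod_sum (fun j a => q a * (if j = i then ent (gad γ ν (ρ a)) else 1)),
        Finset.prod_eq_single i (fun j _ hj => by simp [hj, hsum]) (by simp)]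
      simp
    simp only [Finset.mul_sum]
    rw [Finset.sum_comm (s := Finset.univ) (t := (Finset.univ : Finset (Fin n)))]
    simp [e2]
    ring

theorem chi_gadPow (hγ0 : 0 ≤ γ) (hγ1 : γ ≤ 1) (hν0 : 0 ≤ ν) (hν1 : ν ≤ 1) (n : ℕ) :
    chi (gadPow γ ν n) = n * chi (gad γ ν) := by
  have hne := nonempty_values (gad γ ν)
  have hne' : (holevoValues (gadPow γ ν n)).Nonempty :=
    ⟨_, mul_mem_values hγ0 hγ1 hν0 hν1 n hne.some_mem⟩
  have hb : BddAbove (holevoValues (gadPow γ ν n)) :=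
    ⟨_, fun r hr => value_pow_le hγ0 hγ1 hν0 hν1 n hr⟩
  refine le_antisymm (csSup_le hne' fun r hr => value_pow_le hγ0 hγ1 hν0 hν1 n hr) ?_
  rcases Nat.eq_zero_or_pos n with h | h
  · subst h
    rw [Nat.cast_zero, zero_mul]
    exact le_csSup hb (by simpa using mul_mem_values hγ0 hγ1 hν0 hν1 0 hne.some_mem)
  · have hn : (0 : ℝ) < n := by exact_mod_cast h
    rw [← le_div_iff₀' hn]
    refine csSup_le hne fun r hr => ?_
    rw [le_div_iff₀' hn]
    exact le_csSup hb (mul_mem_values hγ0 hγ1 hν0 hν1 n hr)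

theorem capacity_eq (hγ0 : 0 ≤ γ) (hγ1 : γ ≤ 1) (hν0 : 0 ≤ ν) (hν1 : ν ≤ 1) :
    capacity γ ν = chi (gad γ ν) := by
  have e : ∀ n : ℕ, chi (gadPow γ ν (n + 1)) / ((n : ℝ) + 1) = chi (gad γ ν) := fun n => by
    rw [chi_gadPow hγ0 hγ1 hν0 hν1]
    push_cast
    field_simp
  unfold capacity
  simp only [e, ciSup_const]

end Vale.Agent.P358
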